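import Mathlib

/-!
Abstract counting lemmas: comparison of two sums through a biregular correspondence, and
comparison of two averages when the second set splits into four parts.
-/

namespace Vale.Agent.H66

open Finset

theorem sum_fibre_count {Ω : Type*} {C : Type*} [Fintype C] (F : Finset Ω) (A : Ω → C → Prop)
    [∀ H z, Decidable (A H z)] (α : ℕ)
    (hα : ∀ H ∈ F, (univ.filter (fun z => A H z)).card = α) (g : Ω → ℝ) :
    ∑ z, ∑ H ∈ F.filter (fun H => A H z), g H = (α : ℝ) * ∑ H ∈ F, g H := by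
  have h1 : ∀ z, ∑ H ∈ F.filter (fun H => A H z), g H = ∑ H ∈ F, if A H z then g H else 0 :=
    fun z => Finset.sum_filter _ _
  simp_rw [h1]
  rw [Finset.sum_comm, Finset.mul_sum]
  apply Finset.sum_congr rfl
  intro H hH
  rw [← Finset.sum_filter, Finset.sum_const, nsmul_eq_mul, hα H hH]

/-- Two finite sets related by a biregular correspondence with a Lipschitz bound along it. -/
theorem biregular_bound {Ω : Type*} {C : Type*} [Fintype C] (F T : Finset Ω)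
    (A A' : Ω → C → Prop) [∀ H z, Decidable (A H z)] [∀ H z, Decidable (A' H z)]
    (φ : Ω → C → Ω) (α β : ℕ) (hβ : 0 < β)
    (hα : ∀ H ∈ F, (univ.filter (fun z => A H z)).card = α)
    (hβ' : ∀ H ∈ T, (univ.filter (fun z => A' H z)).card = β)
    (hbij : ∀ (g : Ω → ℝ) (z : C),
      ∑ H ∈ F.filter (fun H => A H z), g (φ H z) = ∑ H ∈ T.filter (fun H => A' H z), g H)
    (f : Ω → ℝ) (c : ℝ) (hlip : ∀ H ∈ F, ∀ z, A H z → |f H - f (φ H z)| ≤ c) :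
    |(T.card : ℝ) * ∑ H ∈ F, f H - (F.card : ℝ) * ∑ H ∈ T, f H|
      ≤ (F.card : ℝ) * (T.card : ℝ) * c := by
  have h1 := sum_fibre_count F A α hα f
  have h2 := sum_fibre_count T A' β hβ' f
  have h1' := sum_fibre_count F A α hα (fun _ => (1 : ℝ))
  have h2' := sum_fibre_count T A' β hβ' (fun _ => (1 : ℝ))
  have h3 : ∑ z, ∑ H ∈ F.filter (fun H => A H z), f (φ H z)
      = ∑ z, ∑ H ∈ T.filter (fun H => A' H z), f H :=
    Finset.sum_congr rfl (fun z _ => hbij f z)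
  have h3' : ∑ z, ∑ H ∈ F.filter (fun H => A H z), (1 : ℝ)
      = ∑ z, ∑ H ∈ T.filter (fun H => A' H z), (1 : ℝ) :=
    Finset.sum_congr rfl (fun z _ => hbij (fun _ => 1) z)
  have h4 : (α : ℝ) * (F.card : ℝ) = (β : ℝ) * (T.card : ℝ) := by
    rw [h1', h2'] at h3'
    simpa using h3'
  have h5 : |(α : ℝ) * ∑ H ∈ F, f H - (β : ℝ) * ∑ H ∈ T, f H| ≤ (α : ℝ) * (F.card : ℝ) * c := by
    rw [← h1, ← h2, ← h3, ← Finset.sum_sub_distrib]
    have h6 : ∀ z, |∑ H ∈ F.filter (fun H => A H z), f H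
        - ∑ H ∈ F.filter (fun H => A H z), f (φ H z)|
        ≤ ∑ H ∈ F.filter (fun H => A H z), c := by
      intro z
      rw [← Finset.sum_sub_distrib]
      refine (Finset.abs_sum_le_sum_abs _ _).trans (Finset.sum_le_sum ?_)
      intro H hH
      rw [Finset.mem_filter] at hH
      exact hlip H hH.1 z hH.2
    refine (Finset.abs_sum_le_sum_abs _ _).trans ((Finset.sum_le_sum (fun z _ => h6 z)).trans ?_)
    have h7 := sum_fibre_count F A α hα (fun _ => c)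
    rw [h7]
    simp only [Finset.sum_const, nsmul_eq_mul]
    exact le_of_eq (by ring)
  have hβpos : (0 : ℝ) < (β : ℝ) := by exact_mod_cast hβ
  have h8 : (β : ℝ) * ((T.card : ℝ) * ∑ H ∈ F, f H - (F.card : ℝ) * ∑ H ∈ T, f H)
      = (F.card : ℝ) * ((α : ℝ) * ∑ H ∈ F, f H - (β : ℝ) * ∑ H ∈ T, f H) := by
    have : (β : ℝ) * (T.card : ℝ) * ∑ H ∈ F, f H = (α : ℝ) * (F.card : ℝ) * ∑ H ∈ F, f H := by
      rw [h4]
    linear_combination this
  have h9 : (β : ℝ) * |(T.card : ℝ) * ∑ H ∈ F, f H - (F.card : ℝ) * ∑ H ∈ T, f H|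
      ≤ (β : ℝ) * ((F.card : ℝ) * (T.card : ℝ) * c) := by
    rw [← abs_of_pos hβpos, ← abs_mul, abs_of_pos hβpos, h8, abs_mul,
      abs_of_nonneg (Nat.cast_nonneg F.card)]
    calc (F.card : ℝ) * |(α : ℝ) * ∑ H ∈ F, f H - (β : ℝ) * ∑ H ∈ T, f H|
        ≤ (F.card : ℝ) * ((α : ℝ) * (F.card : ℝ) * c) :=
          mul_le_mul_of_nonneg_left h5 (Nat.cast_nonneg _)
      _ = (β : ℝ) * ((F.card : ℝ) * (T.card : ℝ) * c) := by
          have : (F.card : ℝ) * ((α : ℝ) * (F.card : ℝ) * c)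
              = (F.card : ℝ) * (((α : ℝ) * (F.card : ℝ)) * c) := by ring
          rw [this, h4]
          ring
  exact le_of_mul_le_mul_left h9 hβpos

/-- Averages over `F` and over a set of total data split into four parts. -/
theorem four_parts_avg {Ω : Type*} (F F' T1 T2 T3 T4 : Finset Ω) (f : Ω → ℝ) (c : ℝ)
    (hF : F.Nonempty) (hF' : F'.Nonempty)
    (hcard : (F'.card : ℝ) = T1.card + T2.card + T3.card + T4.card)
    (hsum : ∑ H ∈ F', f H = ∑ H ∈ T1, f H + ∑ H ∈ T2, f H + ∑ H ∈ T3, f H + ∑ H ∈ T4, f H)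
    (h1 : |(T1.card : ℝ) * ∑ H ∈ F, f H - (F.card : ℝ) * ∑ H ∈ T1, f H|
      ≤ (F.card : ℝ) * (T1.card : ℝ) * c)
    (h2 : |(T2.card : ℝ) * ∑ H ∈ F, f H - (F.card : ℝ) * ∑ H ∈ T2, f H|
      ≤ (F.card : ℝ) * (T2.card : ℝ) * c)
    (h3 : |(T3.card : ℝ) * ∑ H ∈ F, f H - (F.card : ℝ) * ∑ H ∈ T3, f H|
      ≤ (F.card : ℝ) * (T3.card : ℝ) * c)
    (h4 : |(T4.card : ℝ) * ∑ H ∈ F, f H - (F.card : ℝ) * ∑ H ∈ T4, f H|
      ≤ (F.card : ℝ) * (T4.card : ℝ) * c) :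
    |(∑ H ∈ F, f H) / (F.card : ℝ) - (∑ H ∈ F', f H) / (F'.card : ℝ)| ≤ c := by
  have hN : (0 : ℝ) < (F.card : ℝ) := by exact_mod_cast Finset.card_pos.mpr hF
  have hN' : (0 : ℝ) < (F'.card : ℝ) := by exact_mod_cast Finset.card_pos.mpr hF'
  have key : |(F'.card : ℝ) * ∑ H ∈ F, f H - (F.card : ℝ) * ∑ H ∈ F', f H|
      ≤ (F.card : ℝ) * (F'.card : ℝ) * c := by
    have e : (F'.card : ℝ) * ∑ H ∈ F, f H - (F.card : ℝ) * ∑ H ∈ F', f H
        = ((T1.card : ℝ) * ∑ H ∈ F, f H - (F.card : ℝ) * ∑ H ∈ T1, f H)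
          + ((T2.card : ℝ) * ∑ H ∈ F, f H - (F.card : ℝ) * ∑ H ∈ T2, f H)
          + ((T3.card : ℝ) * ∑ H ∈ F, f H - (F.card : ℝ) * ∑ H ∈ T3, f H)
          + ((T4.card : ℝ) * ∑ H ∈ F, f H - (F.card : ℝ) * ∑ H ∈ T4, f H) := by
      rw [hcard, hsum]
      ring
    rw [e]
    have t1 := abs_add_le (((T1.card : ℝ) * ∑ H ∈ F, f H - (F.card : ℝ) * ∑ H ∈ T1, f H)
          + ((T2.card : ℝ) * ∑ H ∈ F, f H - (F.card : ℝ) * ∑ H ∈ T2, f H)
          + ((T3.card : ℝ) * ∑ H ∈ F, f H - (F.card : ℝ) * ∑ H ∈ T3, f H))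
          ((T4.card : ℝ) * ∑ H ∈ F, f H - (F.card : ℝ) * ∑ H ∈ T4, f H)
    have t2 := abs_add_le (((T1.card : ℝ) * ∑ H ∈ F, f H - (F.card : ℝ) * ∑ H ∈ T1, f H)
          + ((T2.card : ℝ) * ∑ H ∈ F, f H - (F.card : ℝ) * ∑ H ∈ T2, f H))
          ((T3.card : ℝ) * ∑ H ∈ F, f H - (F.card : ℝ) * ∑ H ∈ T3, f H)
    have t3 := abs_add_le ((T1.card : ℝ) * ∑ H ∈ F, f H - (F.card : ℝ) * ∑ H ∈ T1, f H)
          ((T2.card : ℝ) * ∑ H ∈ F, f H - (F.card : ℝ) * ∑ H ∈ T2, f H)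
    have e2 : (F.card : ℝ) * (F'.card : ℝ) * c
        = (F.card : ℝ) * (T1.card : ℝ) * c + (F.card : ℝ) * (T2.card : ℝ) * c
          + (F.card : ℝ) * (T3.card : ℝ) * c + (F.card : ℝ) * (T4.card : ℝ) * c := by
      rw [hcard]
      ring
    rw [e2]
    linarith
  have e3 : (∑ H ∈ F, f H) / (F.card : ℝ) - (∑ H ∈ F', f H) / (F'.card : ℝ)
      = ((F'.card : ℝ) * ∑ H ∈ F, f H - (F.card : ℝ) * ∑ H ∈ F', f H)
        / ((F.card : ℝ) * (F'.card : ℝ)) := by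
    field_simp
  rw [e3, abs_div, abs_of_pos (mul_pos hN hN'), div_le_iff₀ (mul_pos hN hN')]
  linarith

end Vale.Agent.H66
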