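import Vale.Agent.H66.KTV.CaseIFacts
import Vale.Agent.H66.KTV.Count

/-!
Three-row lemma, core case: the part of the second fibre with row `a` equal to (1, 1) at the
columns `x, y` is compared with the first fibre through a biregular correspondence made of one
mixed switch followed by one exchange of two columns in the three rows.
-/

namespace Vale.Agent.H66

open Vale.Agent.H90 Finset

set_option linter.unusedSectionVars false
set_option linter.unusedVariables false
set_option linter.unusedSimpArgs false

variable {R C : Type*} [Fintype R] [DecidableEq R] [Fintype C] [DecidableEq C]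

/-- The two-step move from the first fibre to the third part of the second fibre. -/
def phi3 (a b e : R) (G : R → C → Bool) (x y : C) (H : R → C → Bool) (z : C) : R → C → Bool :=
  if G b z = true then colSwap {a, b, e} x z (colSwap {a, b} x y H)
  else colSwap {a, b, e} y z (colSwap {b, e} x y H)

/-- The inverse two-step move. -/
def psi3 (a b e : R) (G : R → C → Bool) (x y : C) (H : R → C → Bool) (z : C) : R → C → Bool :=
  if G b z = true then colSwap {a, b} x y (colSwap {a, b, e} x z H)
  else colSwap {b, e} x y (colSwap {a, b, e} y z H)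

theorem psi3_phi3 (a b e : R) (G : R → C → Bool) (x y : C) (H : R → C → Bool) (z : C) :
    psi3 a b e G x y (phi3 a b e G x y H z) z = H := by
  unfold psi3 phi3
  split_ifs
  · rw [colSwap_invol, colSwap_invol]
  · rw [colSwap_invol, colSwap_invol]

theorem phi3_psi3 (a b e : R) (G : R → C → Bool) (x y : C) (H : R → C → Bool) (z : C) :
    phi3 a b e G x y (psi3 a b e G x y H z) z = H := by
  unfold psi3 phi3
  split_ifs
  · rw [colSwap_invol, colSwap_invol]
  · rw [colSwap_invol, colSwap_invol]

section CaseI

variable (a b e : R) (hab : a ≠ b) (hae : a ≠ e) (hbe : b ≠ e) (G : R → C → Bool) (x y : C)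
  (hax : G a x = true) (hay : G a y = false) (hbx : G b x = false) (hby : G b y = true)
  (hex : G e x = true) (hey : G e y = false)

include hab hae hbe hax hay hbx hby hex hey

theorem ci_three_fwd {H : R → C → Bool} (hH : RelP a e G H) (z : C)
    (hz1 : H a z = true) (hz2 : H e z = false)
    (f : (R → C → Bool) → ℝ) (LA LB : ℝ)
    (hA : ∀ A u v, SameMarg A (colSwap {a, b, e} u v A) →
      |f A - f (colSwap {a, b, e} u v A)| ≤ LA)
    (hB1 : ∀ A u v, SameMarg A (colSwap {b, e} u v A) → A a u ≠ A a v →
      |f A - f (colSwap {b, e} u v A)| ≤ LB)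
    (hB2 : ∀ A u v, SameMarg A (colSwap {a, b} u v A) → A e u ≠ A e v →
      |f A - f (colSwap {a, b} u v A)| ≤ LB) :
    RelP a e (colSwap {a, b} x y G) (phi3 a b e G x y H z) ∧
      phi3 a b e G x y H z a x = true ∧ phi3 a b e G x y H z a y = true ∧
      phi3 a b e G x y H z a z = false ∧ phi3 a b e G x y H z e z = true ∧
      |f H - f (phi3 a b e G x y H z)| ≤ LA + LB := by
  have hxy : x ≠ y := ci_xy a b e hab hae hbe G x y hax hay hbx hby hex hey
  obtain ⟨h1, h2, h3, h4, h5⟩ := ci_F a b e hab hae hbe G x y hax hay hbx hby hex hey hH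
  have hzx : z ≠ x := by
    rintro rfl
    rw [h2] at hz2
    exact Bool.noConfusion hz2
  have hzy : z ≠ y := by
    rintro rfl
    rw [h3] at hz1
    exact Bool.noConfusion hz1
  have hG' := ci_G' a b e hab hae hbe G x y hax hay hbx hby hex hey
  have hbH : ∀ c, H b c = G b c := fun c => by rw [h5]
  by_cases hbz : G b z = true
  · have hphi : phi3 a b e G x y H z = colSwap {a, b, e} x z (colSwap {a, b} x y H) := by
      unfold phi3
      rw [if_pos hbz]
    rw [hphi]
    have hs1 : SameMarg H (colSwap {a, b} x y H) := by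
      apply sameMarg_colSwap
      rw [cnt_pair hab, cnt_pair hab, h5, h1, h3, hbx, hby]
      rfl
    have hs2 : SameMarg (colSwap {a, b} x y H)
        (colSwap {a, b, e} x z (colSwap {a, b} x y H)) := by
      apply sameMarg_colSwap
      rw [cnt_triple hab hae hbe, cnt_triple hab hae hbe]
      simp [colSwap_apply, Equiv.swap_apply_of_ne_of_ne hzx hzy, hab, hae, hbe, hab.symm,
        hae.symm, hbe.symm, h1, h2, h3, h4, hbH, hbx, hby, hbz, hz1, hz2]
    refine ⟨⟨?_, sameMarg_trans (sameMarg_symm hG') (sameMarg_trans hH.2
      (sameMarg_trans hs1 hs2))⟩, ?_, ?_, ?_, ?_, ?_⟩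
    · intro k hka hke
      by_cases hkb : k = b
      · rw [hkb]
        funext c
        rw [colSwap_of_mem (by simp), colSwap_of_mem (by simp), colSwap_of_mem (by simp), h5]
        exact (swap_inv_of_eq (fun c' => G b (Equiv.swap x y c')) x z
          (by simp [Equiv.swap_apply_of_ne_of_ne hzx hzy, hby, hbz]) c).symm
      · rw [colSwap_of_not_mem (by simp [hka, hkb]), colSwap_of_not_mem (by simp [hka, hkb, hke]),
          colSwap_of_not_mem (by simp [hka, hkb])]
        exact hH.1 k hka hke
    · simp [colSwap_apply, Equiv.swap_apply_of_ne_of_ne hzx hzy, hz1]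
    · simp [colSwap_apply, Equiv.swap_apply_of_ne_of_ne hxy.symm hzy.symm, h1]
    · simp [colSwap_apply, h3]
    · simp [colSwap_apply, hae.symm, hbe.symm, h2]
    · have hl1 : |f H - f (colSwap {a, b} x y H)| ≤ LB := by
        apply hB2 H x y hs1
        rw [h2, h4]
        simp
      have hl2 := hA (colSwap {a, b} x y H) x z hs2
      have := abs_sub_le (f H) (f (colSwap {a, b} x y H))
        (f (colSwap {a, b, e} x z (colSwap {a, b} x y H)))
      linarith
  · have hbz' : G b z = false := by
      revert hbz
      cases G b z <;> simp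
    have hphi : phi3 a b e G x y H z = colSwap {a, b, e} y z (colSwap {b, e} x y H) := by
      unfold phi3
      rw [if_neg hbz]
    rw [hphi]
    have hs1 : SameMarg H (colSwap {b, e} x y H) := by
      apply sameMarg_colSwap
      rw [cnt_pair hbe, cnt_pair hbe, h5, h2, h4, hbx, hby]
      rfl
    have hs2 : SameMarg (colSwap {b, e} x y H)
        (colSwap {a, b, e} y z (colSwap {b, e} x y H)) := by
      apply sameMarg_colSwap
      rw [cnt_triple hab hae hbe, cnt_triple hab hae hbe]
      simp [colSwap_apply, Equiv.swap_apply_of_ne_of_ne hzx hzy, hab, hae, hbe, hab.symm,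
        hae.symm, hbe.symm, h1, h2, h3, h4, hbH, hbx, hby, hbz', hz1, hz2]
    refine ⟨⟨?_, sameMarg_trans (sameMarg_symm hG') (sameMarg_trans hH.2
      (sameMarg_trans hs1 hs2))⟩, ?_, ?_, ?_, ?_, ?_⟩
    · intro k hka hke
      by_cases hkb : k = b
      · rw [hkb]
        funext c
        rw [colSwap_of_mem (by simp), colSwap_of_mem (by simp), colSwap_of_mem (by simp), h5]
        exact (swap_inv_of_eq (fun c' => G b (Equiv.swap x y c')) y z
          (by simp [Equiv.swap_apply_of_ne_of_ne hzx hzy, hbx, hbz']) c).symm
      · rw [colSwap_of_not_mem (by simp [hka, hkb]), colSwap_of_not_mem (by simp [hka, hkb, hke]),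
          colSwap_of_not_mem (by simp [hke, hkb])]
        exact hH.1 k hka hke
    · simp [colSwap_apply, Equiv.swap_apply_of_ne_of_ne hxy hzx.symm, hab, hae, h1]
    · simp [colSwap_apply, hab, hae, hz1]
    · simp [colSwap_apply, hab, hae, h3]
    · simp [colSwap_apply, hae.symm, hbe.symm, h2]
    · have hl1 : |f H - f (colSwap {b, e} x y H)| ≤ LB := by
        apply hB1 H x y hs1
        rw [h1, h3]
        simp
      have hl2 := hA (colSwap {b, e} x y H) y z hs2
      have := abs_sub_le (f H) (f (colSwap {b, e} x y H))
        (f (colSwap {a, b, e} y z (colSwap {b, e} x y H)))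
      linarith

theorem ci_three_bwd {H : R → C → Bool} (hH : RelP a e (colSwap {a, b} x y G) H)
    (hHx : H a x = true) (hHy : H a y = true) (z : C) (hz1 : H a z = false)
    (hz2 : H e z = true) :
    RelP a e G (psi3 a b e G x y H z) ∧ psi3 a b e G x y H z a z = true ∧
      psi3 a b e G x y H z e z = false := by
  have hxy : x ≠ y := ci_xy a b e hab hae hbe G x y hax hay hbx hby hex hey
  obtain ⟨h1, h2, h3, h4⟩ := ci_F' a b e hab hae hbe G x y hax hay hbx hby hex hey hH
  rw [hHx] at h1
  rw [hHy] at h2
  have hex' : H e x = false := by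
    revert h1
    cases H e x <;> simp
  have hey' : H e y = false := by
    revert h2
    cases H e y <;> simp
  have hzx : z ≠ x := by
    rintro rfl
    rw [hHx] at hz1
    exact Bool.noConfusion hz1
  have hzy : z ≠ y := by
    rintro rfl
    rw [hHy] at hz1
    exact Bool.noConfusion hz1
  have hbx' : H b x = true := by
    rw [h3]
    simp [hby]
  have hby' : H b y = false := by
    rw [h3]
    simp [hbx]
  have hbz' : H b z = G b z := by
    rw [h3, Equiv.swap_apply_of_ne_of_ne hzx hzy]
  have hG' := ci_G' a b e hab hae hbe G x y hax hay hbx hby hex hey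
  by_cases hbz : G b z = true
  · have hpsi : psi3 a b e G x y H z = colSwap {a, b} x y (colSwap {a, b, e} x z H) := by
      unfold psi3
      rw [if_pos hbz]
    rw [hpsi]
    have hs1 : SameMarg H (colSwap {a, b, e} x z H) := by
      apply sameMarg_colSwap
      rw [cnt_triple hab hae hbe, cnt_triple hab hae hbe, hHx, hbx', hex', hz1, hbz', hbz, hz2]
      rfl
    have hs2 : SameMarg (colSwap {a, b, e} x z H)
        (colSwap {a, b} x y (colSwap {a, b, e} x z H)) := by
      apply sameMarg_colSwap
      rw [cnt_pair hab, cnt_pair hab]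
      simp [colSwap_apply, Equiv.swap_apply_of_ne_of_ne hxy.symm hzy.symm, hz1, hbz', hbz, hHy,
        hby']
    refine ⟨⟨?_, sameMarg_trans hG' (sameMarg_trans hH.2 (sameMarg_trans hs1 hs2))⟩, ?_, ?_⟩
    · intro k hka hke
      by_cases hkb : k = b
      · rw [hkb]
        funext c
        rw [colSwap_of_mem (by simp), colSwap_of_mem (by simp),
          swap_inv_of_eq (H b) x z (by rw [hbx', hbz', hbz]), h3]
        simp
      · rw [colSwap_of_not_mem (by simp [hka, hkb]), colSwap_of_not_mem (by simp [hka, hkb, hke])]
        exact (h4 k hka hkb hke).symm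
    · simp [colSwap_apply, Equiv.swap_apply_of_ne_of_ne hzx hzy, hHx]
    · simp [colSwap_apply, hae.symm, hbe.symm, hex']
  · have hbzf : G b z = false := by
      revert hbz
      cases G b z <;> simp
    have hpsi : psi3 a b e G x y H z = colSwap {b, e} x y (colSwap {a, b, e} y z H) := by
      unfold psi3
      rw [if_neg hbz]
    rw [hpsi]
    have hs1 : SameMarg H (colSwap {a, b, e} y z H) := by
      apply sameMarg_colSwap
      rw [cnt_triple hab hae hbe, cnt_triple hab hae hbe, hHy, hby', hey', hz1, hbz', hbzf, hz2]
      rfl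
    have hs2 : SameMarg (colSwap {a, b, e} y z H)
        (colSwap {b, e} x y (colSwap {a, b, e} y z H)) := by
      apply sameMarg_colSwap
      rw [cnt_pair hbe, cnt_pair hbe]
      simp [colSwap_apply, Equiv.swap_apply_of_ne_of_ne hxy hzx.symm, hz2, hbz', hbzf, hbx',
        hex']
    refine ⟨⟨?_, sameMarg_trans hG' (sameMarg_trans hH.2 (sameMarg_trans hs1 hs2))⟩, ?_, ?_⟩
    · intro k hka hke
      by_cases hkb : k = b
      · rw [hkb]
        funext c
        rw [colSwap_of_mem (by simp), colSwap_of_mem (by simp),
          swap_inv_of_eq (H b) y z (by rw [hby', hbz', hbzf]), h3]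
        simp
      · rw [colSwap_of_not_mem (by simp [hke, hkb]), colSwap_of_not_mem (by simp [hka, hkb, hke])]
        exact (h4 k hka hkb hke).symm
    · simp [colSwap_apply, hab, hae, hHy]
    · simp [colSwap_apply, Equiv.swap_apply_of_ne_of_ne hzx hzy, hey']

theorem ci_three_bij (g : (R → C → Bool) → ℝ) (z : C) :
    ∑ H ∈ (univ.filter (fun H => RelP a e G H)).filter (fun H => H a z = true ∧ H e z = false),
        g (phi3 a b e G x y H z)
      = ∑ H ∈ (univ.filter (fun H => RelP a e (colSwap {a, b} x y G) H ∧ H a x = true ∧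
          H a y = true)).filter (fun H => H a z = false ∧ H e z = true), g H := by
  apply Finset.sum_bij' (fun H _ => phi3 a b e G x y H z) (fun H _ => psi3 a b e G x y H z)
  · intro H hH
    simp only [mem_filter, mem_univ, true_and] at hH ⊢
    obtain ⟨k1, k2, k3, k4, k5, _⟩ := ci_three_fwd a b e hab hae hbe G x y hax hay hbx hby hex hey
      hH.1 z hH.2.1 hH.2.2 (fun _ => 0) 0 0 (by simp) (by simp) (by simp)
    exact ⟨⟨k1, k2, k3⟩, k4, k5⟩
  · intro H hH
    simp only [mem_filter, mem_univ, true_and] at hH ⊢
    obtain ⟨k1, k2, k3⟩ := ci_three_bwd a b e hab hae hbe G x y hax hay hbx hby hex hey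
      hH.1.1 hH.1.2.1 hH.1.2.2 z hH.2.1 hH.2.2
    exact ⟨k1, k2, k3⟩
  · intro H _
    exact psi3_phi3 a b e G x y H z
  · intro H _
    exact phi3_psi3 a b e G x y H z
  · intro H _
    rfl

/-- The third part: comparison of sums weighted by the cardinalities. -/
theorem ci_part_three (f : (R → C → Bool) → ℝ) (LA LB : ℝ)
    (hA : ∀ A u v, SameMarg A (colSwap {a, b, e} u v A) →
      |f A - f (colSwap {a, b, e} u v A)| ≤ LA)
    (hB1 : ∀ A u v, SameMarg A (colSwap {b, e} u v A) → A a u ≠ A a v →
      |f A - f (colSwap {b, e} u v A)| ≤ LB)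
    (hB2 : ∀ A u v, SameMarg A (colSwap {a, b} u v A) → A e u ≠ A e v →
      |f A - f (colSwap {a, b} u v A)| ≤ LB) :
    |((univ.filter (fun H => RelP a e (colSwap {a, b} x y G) H ∧ H a x = true ∧
          H a y = true)).card : ℝ) * ∑ H ∈ univ.filter (fun H => RelP a e G H), f H
        - ((univ.filter (fun H => RelP a e G H)).card : ℝ)
          * ∑ H ∈ univ.filter (fun H => RelP a e (colSwap {a, b} x y G) H ∧ H a x = true ∧
              H a y = true), f H|
      ≤ ((univ.filter (fun H => RelP a e G H)).card : ℝ)
          * ((univ.filter (fun H => RelP a e (colSwap {a, b} x y G) H ∧ H a x = true ∧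
              H a y = true)).card : ℝ) * (LA + LB) := by
  apply biregular_bound (univ.filter (fun H => RelP a e G H))
    (univ.filter (fun H => RelP a e (colSwap {a, b} x y G) H ∧ H a x = true ∧ H a y = true))
    (fun H z => H a z = true ∧ H e z = false) (fun H z => H a z = false ∧ H e z = true)
    (phi3 a b e G x y)
    (univ.filter (fun z => G a z = true ∧ G e z = false)).card
    (univ.filter (fun z => colSwap {a, b} x y G a z = false ∧
      colSwap {a, b} x y G e z = true)).card
  · apply Finset.card_pos.mpr
    refine ⟨x, ?_⟩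
    simp [colSwap_apply, hae.symm, hbe.symm, hay, hex]
  · intro H hH
    simp only [mem_filter, mem_univ, true_and] at hH
    exact relP_adm_count hae hH
  · intro H hH
    simp only [mem_filter, mem_univ, true_and] at hH
    exact relP_adm_count' hae hH.1
  · intro g z
    exact ci_three_bij a b e hab hae hbe G x y hax hay hbx hby hex hey g z
  · intro H hH z hz
    simp only [mem_filter, mem_univ, true_and] at hH
    exact (ci_three_fwd a b e hab hae hbe G x y hax hay hbx hby hex hey hH z hz.1 hz.2 f LA LB
      hA hB1 hB2).2.2.2.2.2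

end CaseI

end Vale.Agent.H66
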