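import Vale.Agent.H66.KTV.CaseIOne
import Vale.Agent.H66.KTV.CaseIThree

/-!
Three-row lemma, core case (claim B of the three-row step): if the rows `a, b, e` of `G` read
(1, 0), (0, 1), (1, 0) at the columns `x, y`, then switching the rows `a, b` at `x, y` moves the
fibre average of the pair (a, e) by at most `LA + LB`.
-/

namespace Vale.Agent.H66

open Vale.Agent.H90 Finset

set_option linter.unusedSectionVars false
set_option linter.unusedVariables false
set_option linter.unusedSimpArgs false

theorem four_split {Ω : Type*} [Fintype Ω] (P : Ω → Prop) [DecidablePred P] (u v : Ω → Bool)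
    (g : Ω → ℝ) :
    ∑ H ∈ univ.filter P, g H =
      ∑ H ∈ univ.filter (fun H => P H ∧ u H = true ∧ v H = false), g H
      + ∑ H ∈ univ.filter (fun H => P H ∧ u H = false ∧ v H = true), g H
      + ∑ H ∈ univ.filter (fun H => P H ∧ u H = true ∧ v H = true), g H
      + ∑ H ∈ univ.filter (fun H => P H ∧ u H = false ∧ v H = false), g H := by
  simp only [Finset.sum_filter]
  rw [← Finset.sum_add_distrib, ← Finset.sum_add_distrib, ← Finset.sum_add_distrib]
  apply Finset.sum_congr rfl
  intro H _
  by_cases h : P H <;> cases hu : u H <;> cases hv : v H <;> simp [h, hu, hv]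

variable {R C : Type*} [Fintype R] [DecidableEq R] [Fintype C] [DecidableEq C]

section CaseI

variable (a b e : R) (hab : a ≠ b) (hae : a ≠ e) (hbe : b ≠ e) (G : R → C → Bool) (x y : C)
  (hax : G a x = true) (hay : G a y = false) (hbx : G b x = false) (hby : G b y = true)
  (hex : G e x = true) (hey : G e y = false)

include hab hae hbe hax hay hbx hby hex hey

theorem ci_mirror_rel : RelP a e (colSwap {a, b} x y G) (colSwap {e, b} x y G) := by
  refine ⟨?_, sameMarg_trans
    (sameMarg_symm (ci_G' a b e hab hae hbe G x y hax hay hbx hby hex hey))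
    (ci_G' e b a hbe.symm hae.symm hab.symm G x y hex hey hbx hby hax hay)⟩
  intro k hka hke
  by_cases hkb : k = b
  · rw [hkb]
    funext c
    rw [colSwap_of_mem (by simp), colSwap_of_mem (by simp)]
  · rw [colSwap_of_not_mem (by simp [hka, hkb]), colSwap_of_not_mem (by simp [hke, hkb])]

theorem ci_mirror (s t : Bool) (H : R → C → Bool) :
    (RelP e a (colSwap {e, b} x y G) H ∧ H e x = s ∧ H e y = t) ↔
      (RelP a e (colSwap {a, b} x y G) H ∧ H a x = !s ∧ H a y = !t) := by
  have hm := ci_mirror_rel a b e hab hae hbe G x y hax hay hbx hby hex hey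
  constructor
  · rintro ⟨h1, h2, h3⟩
    have h1' : RelP a e (colSwap {a, b} x y G) H := relP_trans hm (relP_comm.mp h1)
    obtain ⟨k1, k2, _, _⟩ := ci_F' a b e hab hae hbe G x y hax hay hbx hby hex hey h1'
    refine ⟨h1', ?_, ?_⟩
    · rw [h2] at k1
      revert k1
      cases H a x <;> cases s <;> simp
    · rw [h3] at k2
      revert k2
      cases H a y <;> cases t <;> simp
  · rintro ⟨h1, h2, h3⟩
    have h1' : RelP e a (colSwap {e, b} x y G) H := relP_comm.mp (relP_trans (relP_symm hm) h1)
    obtain ⟨k1, k2, _, _⟩ := ci_F' a b e hab hae hbe G x y hax hay hbx hby hex hey h1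
    refine ⟨h1', ?_, ?_⟩
    · rw [h2] at k1
      revert k1
      cases H e x <;> cases s <;> simp
    · rw [h3] at k2
      revert k2
      cases H e y <;> cases t <;> simp

end CaseI

/-- Claim B, core case, of the three-row step. -/
theorem g3_caseI {R C : Type*} [Fintype R] [DecidableEq R] [Fintype C] [DecidableEq C]
    (a b e : R) (hab : a ≠ b) (hae : a ≠ e) (hbe : b ≠ e)
    (f : (R → C → Bool) → ℝ) (LA LB : ℝ)
    (hA : ∀ A x y, SameMarg A (colSwap {a, b, e} x y A) →
      |f A - f (colSwap {a, b, e} x y A)| ≤ LA)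
    (hB : ∀ A A', (RelB a b e A A' ∨ RelB b e a A A' ∨ RelB e a b A A') → |f A - f A'| ≤ LB)
    (G : R → C → Bool) (x y : C)
    (hax : G a x = true) (hay : G a y = false) (hbx : G b x = false) (hby : G b y = true)
    (hex : G e x = true) (hey : G e y = false) :
    |avgRel (RelP a e) f G - avgRel (RelP a e) f (colSwap {a, b} x y G)| ≤ LA + LB := by
  have hLA : 0 ≤ LA := by
    have h0 : colSwap {a, b, e} x x G = G := by
      funext r c
      simp [colSwap_apply]
    have h1 := hA G x x (by rw [h0]; exact sameMarg_refl G)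
    rw [h0] at h1
    simpa using h1
  have hB1 : ∀ A u v, SameMarg A (colSwap {b, e} u v A) → A a u ≠ A a v →
      |f A - f (colSwap {b, e} u v A)| ≤ LB :=
    fun A u v hs hne => hB A _ (Or.inr (Or.inl ⟨u, v, rfl, hs, hne⟩))
  have hB2 : ∀ A u v, SameMarg A (colSwap {a, b} u v A) → A e u ≠ A e v →
      |f A - f (colSwap {a, b} u v A)| ≤ LB :=
    fun A u v hs hne => hB A _ (Or.inl ⟨u, v, rfl, hs, hne⟩)
  have hset3 : ({e, b, a} : Finset R) = {a, b, e} := by
    ext k
    simp only [mem_insert, mem_singleton]
    tauto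
  have hA' : ∀ A u v, SameMarg A (colSwap {e, b, a} u v A) →
      |f A - f (colSwap {e, b, a} u v A)| ≤ LA := by
    rw [hset3]
    exact hA
  have hB1' : ∀ A u v, SameMarg A (colSwap {b, a} u v A) → A e u ≠ A e v →
      |f A - f (colSwap {b, a} u v A)| ≤ LB := by
    rw [Finset.pair_comm b a]
    exact hB2
  have hB2' : ∀ A u v, SameMarg A (colSwap {e, b} u v A) → A a u ≠ A a v →
      |f A - f (colSwap {e, b} u v A)| ≤ LB := by
    rw [Finset.pair_comm e b]
    exact hB1
  have p1 := ci_part_one a b e hab hae hbe G x y hax hay hbx hby hex hey f LB hB1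
  have p3 := ci_part_three a b e hab hae hbe G x y hax hay hbx hby hex hey f LA LB hA hB1 hB2
  have p2 := ci_part_one e b a hbe.symm hae.symm hab.symm G x y hex hey hbx hby hax hay f LB hB1'
  have p4 := ci_part_three e b a hbe.symm hae.symm hab.symm G x y hex hey hbx hby hax hay f LA LB
    hA' hB1' hB2'
  have hFe : (univ.filter (fun H : R → C → Bool => RelP e a G H))
      = univ.filter (fun H => RelP a e G H) :=
    Finset.filter_congr (fun H _ => relP_comm)
  have hT2 : (univ.filter (fun H : R → C → Bool =>
        RelP e a (colSwap {e, b} x y G) H ∧ H e x = true ∧ H e y = false))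
      = univ.filter (fun H => RelP a e (colSwap {a, b} x y G) H ∧ H a x = false ∧ H a y = true) :=
    Finset.filter_congr
      (fun H _ => ci_mirror a b e hab hae hbe G x y hax hay hbx hby hex hey true false H)
  have hT4 : (univ.filter (fun H : R → C → Bool =>
        RelP e a (colSwap {e, b} x y G) H ∧ H e x = true ∧ H e y = true))
      = univ.filter (fun H => RelP a e (colSwap {a, b} x y G) H ∧ H a x = false ∧ H a y = false) :=
    Finset.filter_congr
      (fun H _ => ci_mirror a b e hab hae hbe G x y hax hay hbx hby hex hey true true H)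
  rw [hFe, hT2] at p2
  rw [hFe, hT4] at p4
  have hN : (0 : ℝ) ≤ ((univ.filter (fun H : R → C → Bool => RelP a e G H)).card : ℝ) :=
    Nat.cast_nonneg _
  have hsum := four_split (fun H : R → C → Bool => RelP a e (colSwap {a, b} x y G) H)
    (fun H => H a x) (fun H => H a y) f
  have hcard := four_split (fun H : R → C → Bool => RelP a e (colSwap {a, b} x y G) H)
    (fun H => H a x) (fun H => H a y) (fun _ => (1 : ℝ))
  simp only [Finset.sum_const, nsmul_eq_mul, mul_one] at hcard
  unfold avgRel
  apply four_parts_avg (univ.filter (fun H : R → C → Bool => RelP a e G H))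
    (univ.filter (fun H : R → C → Bool => RelP a e (colSwap {a, b} x y G) H))
    (univ.filter (fun H => RelP a e (colSwap {a, b} x y G) H ∧ H a x = true ∧ H a y = false))
    (univ.filter (fun H => RelP a e (colSwap {a, b} x y G) H ∧ H a x = false ∧ H a y = true))
    (univ.filter (fun H => RelP a e (colSwap {a, b} x y G) H ∧ H a x = true ∧ H a y = true))
    (univ.filter (fun H => RelP a e (colSwap {a, b} x y G) H ∧ H a x = false ∧ H a y = false))
    f (LA + LB)
  · exact ⟨G, by simp [relP_refl]⟩
  · exact ⟨colSwap {a, b} x y G, by simp [relP_refl]⟩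
  · exact hcard
  · exact hsum
  · rw [p1.1, ← mul_sub, abs_mul, abs_of_nonneg hN, mul_assoc]
    apply mul_le_mul_of_nonneg_left _ hN
    have := p1.2
    have hmono := mul_le_mul_of_nonneg_left (by linarith : LB ≤ LA + LB) hN
    linarith
  · rw [p2.1, ← mul_sub, abs_mul, abs_of_nonneg hN, mul_assoc]
    apply mul_le_mul_of_nonneg_left _ hN
    have := p2.2
    have hmono := mul_le_mul_of_nonneg_left (by linarith : LB ≤ LA + LB) hN
    linarith
  · exact p3
  · exact p4

end Vale.Agent.H66
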