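import Vale.Agent.H66.KTV.SwapBasics

/-!
Three-row lemma, core case: facts about the two fibres.
Rows `a, b, e`; the matrix `G` has (a: x=1, y=0), (b: x=0, y=1), (e: x=1, y=0).
-/

namespace Vale.Agent.H66

open Vale.Agent.H90 Finset

set_option linter.unusedSectionVars false
set_option linter.unusedVariables false

variable {R C : Type*} [Fintype R] [DecidableEq R] [Fintype C] [DecidableEq C]

section CaseI

variable (a b e : R) (hab : a ≠ b) (hae : a ≠ e) (hbe : b ≠ e) (G : R → C → Bool) (x y : C)
  (hax : G a x = true) (hay : G a y = false) (hbx : G b x = false) (hby : G b y = true)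
  (hex : G e x = true) (hey : G e y = false)

include hab hae hbe hax hay hbx hby hex hey

theorem ci_xy : x ≠ y := by
  rintro rfl
  rw [hax] at hay
  exact Bool.noConfusion hay

/-- Facts about the fibre of `G` for the pair (a, e). -/
theorem ci_F {H : R → C → Bool} (hH : RelP a e G H) :
    H a x = true ∧ H e x = true ∧ H a y = false ∧ H e y = false ∧ H b = G b := by
  have h1 := relP_res hae hH x
  have h2 := relP_res hae hH y
  rw [hax, hex] at h1
  rw [hay, hey] at h2
  refine ⟨?_, ?_, ?_, ?_, (hH.1 b (Ne.symm hab) hbe).symm⟩
  · revert h1; cases H a x <;> cases H e x <;> simp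
  · revert h1; cases H a x <;> cases H e x <;> simp
  · revert h2; cases H a y <;> cases H e y <;> simp
  · revert h2; cases H a y <;> cases H e y <;> simp

/-- The switched matrix has the same margins. -/
theorem ci_G' : SameMarg G (colSwap {a, b} x y G) := by
  apply sameMarg_colSwap
  rw [cnt_pair hab, cnt_pair hab, hax, hay, hbx, hby]
  rfl

/-- Facts about the fibre of the switched matrix for the pair (a, e). -/
theorem ci_F' {H : R → C → Bool} (hH : RelP a e (colSwap {a, b} x y G) H) :
    (H a x).toNat + (H e x).toNat = 1 ∧ (H a y).toNat + (H e y).toNat = 1 ∧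
      (∀ c, H b c = G b (Equiv.swap x y c)) ∧
      (∀ k, k ≠ a → k ≠ b → k ≠ e → H k = G k) := by
  have hxy : x ≠ y := ci_xy a b e hab hae hbe G x y hax hay hbx hby hex hey
  have h1 := relP_res hae hH x
  have h2 := relP_res hae hH y
  have e1 : colSwap {a, b} x y G a x = false := by
    simp [colSwap_apply, hay]
  have e2 : colSwap {a, b} x y G e x = true := by
    simp [colSwap_apply, hae.symm, hbe.symm, hex]
  have e3 : colSwap {a, b} x y G a y = true := by
    simp [colSwap_apply, hax]
  have e4 : colSwap {a, b} x y G e y = false := by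
    simp [colSwap_apply, hae.symm, hbe.symm, hey]
  rw [e1, e2] at h1
  rw [e3, e4] at h2
  refine ⟨h1, h2, ?_, ?_⟩
  · intro c
    have := hH.1 b (Ne.symm hab) hbe
    rw [← this]
    simp [colSwap_apply]
  · intro k hka hkb hke
    have := hH.1 k hka hke
    rw [← this]
    exact colSwap_of_not_mem (by simp [hka, hkb]) x y G

end CaseI

end Vale.Agent.H66
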