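import Vale.Agent.H66.KTV.CaseIFacts

/-!
Three-row lemma, core case: the part of the second fibre with row `a` equal to (1, 0) at the
columns `x, y` is in bijection with the first fibre through a swap in the rows `b, e`.
-/

namespace Vale.Agent.H66

open Vale.Agent.H90 Finset

set_option linter.unusedSectionVars false
set_option linter.unusedVariables false

variable {R C : Type*} [Fintype R] [DecidableEq R] [Fintype C] [DecidableEq C]

section CaseI

variable (a b e : R) (hab : a ≠ b) (hae : a ≠ e) (hbe : b ≠ e) (G : R → C → Bool) (x y : C)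
  (hax : G a x = true) (hay : G a y = false) (hbx : G b x = false) (hby : G b y = true)
  (hex : G e x = true) (hey : G e y = false)

include hab hae hbe hax hay hbx hby hex hey

theorem ci_one_fwd {H : R → C → Bool} (hH : RelP a e G H) :
    SameMarg H (colSwap {b, e} x y H) ∧
    RelP a e (colSwap {a, b} x y G) (colSwap {b, e} x y H) ∧
      colSwap {b, e} x y H a x = true ∧ colSwap {b, e} x y H a y = false := by
  obtain ⟨h1, h2, h3, h4, h5⟩ := ci_F a b e hab hae hbe G x y hax hay hbx hby hex hey hH
  have hsm : SameMarg H (colSwap {b, e} x y H) := by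
    apply sameMarg_colSwap
    rw [cnt_pair hbe, cnt_pair hbe, h5, hbx, hby, h2, h4]
    rfl
  refine ⟨hsm, ⟨?_, ?_⟩, ?_, ?_⟩
  · intro k hka hke
    by_cases hkb : k = b
    · subst hkb
      funext c
      rw [colSwap_of_mem (by simp), colSwap_of_mem (by simp), h5]
    · rw [colSwap_of_not_mem (by simp [hka, hkb]), colSwap_of_not_mem (by simp [hke, hkb])]
      exact hH.1 k hka hke
  · exact sameMarg_trans
      (sameMarg_symm (ci_G' a b e hab hae hbe G x y hax hay hbx hby hex hey))
      (sameMarg_trans hH.2 hsm)
  · rw [colSwap_of_not_mem (by simp [hab, hae])]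
    exact h1
  · rw [colSwap_of_not_mem (by simp [hab, hae])]
    exact h3

theorem ci_one_bwd {H : R → C → Bool} (hH : RelP a e (colSwap {a, b} x y G) H)
    (hHx : H a x = true) (hHy : H a y = false) :
    RelP a e G (colSwap {b, e} x y H) := by
  have hxy : x ≠ y := ci_xy a b e hab hae hbe G x y hax hay hbx hby hex hey
  obtain ⟨h1, h2, h3, h4⟩ := ci_F' a b e hab hae hbe G x y hax hay hbx hby hex hey hH
  rw [hHx] at h1
  rw [hHy] at h2
  have hex' : H e x = false := by
    revert h1; cases H e x <;> simp
  have hey' : H e y = true := by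
    revert h2; cases H e y <;> simp
  have hsm : SameMarg H (colSwap {b, e} x y H) := by
    apply sameMarg_colSwap
    rw [cnt_pair hbe, cnt_pair hbe, h3, h3, hex', hey']
    simp [hbx, hby]
  refine ⟨?_, ?_⟩
  · intro k hka hke
    by_cases hkb : k = b
    · subst hkb
      funext c
      rw [colSwap_of_mem (by simp), h3]
      simp
    · rw [colSwap_of_not_mem (by simp [hke, hkb])]
      exact (h4 k hka hkb hke).symm
  · exact sameMarg_trans (ci_G' a b e hab hae hbe G x y hax hay hbx hby hex hey)
      (sameMarg_trans hH.2 hsm)

/-- The first part: cardinality and sum comparison. -/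
theorem ci_part_one (f : (R → C → Bool) → ℝ) (LB : ℝ)
    (hB1 : ∀ A u v, SameMarg A (colSwap {b, e} u v A) → A a u ≠ A a v →
      |f A - f (colSwap {b, e} u v A)| ≤ LB) :
    (univ.filter (fun H => RelP a e (colSwap {a, b} x y G) H ∧ H a x = true ∧ H a y = false)).card
        = (univ.filter (fun H => RelP a e G H)).card ∧
      |∑ H ∈ univ.filter (fun H => RelP a e G H), f H
          - ∑ H ∈ univ.filter (fun H => RelP a e (colSwap {a, b} x y G) H ∧ H a x = true ∧
              H a y = false), f H|
        ≤ ((univ.filter (fun H => RelP a e G H)).card : ℝ) * LB := by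
  have hbij : ∀ g : (R → C → Bool) → ℝ,
      ∑ H ∈ univ.filter (fun H => RelP a e (colSwap {a, b} x y G) H ∧ H a x = true ∧
        H a y = false), g H
        = ∑ H ∈ univ.filter (fun H => RelP a e G H), g (colSwap {b, e} x y H) := by
    intro g
    apply Finset.sum_bij' (fun H _ => colSwap {b, e} x y H) (fun H _ => colSwap {b, e} x y H)
    · intro H hH
      simp only [mem_filter, mem_univ, true_and] at hH ⊢
      exact ci_one_bwd a b e hab hae hbe G x y hax hay hbx hby hex hey hH.1 hH.2.1 hH.2.2
    · intro H hH
      simp only [mem_filter, mem_univ, true_and] at hH ⊢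
      exact (ci_one_fwd a b e hab hae hbe G x y hax hay hbx hby hex hey hH).2
    · intro H _
      exact colSwap_invol _ _ _ _
    · intro H _
      exact colSwap_invol _ _ _ _
    · intro H _
      rw [colSwap_invol]
  constructor
  · have := hbij (fun _ => 1)
    simpa using this
  · rw [hbij f, ← Finset.sum_sub_distrib]
    calc |∑ H ∈ univ.filter (fun H => RelP a e G H), (f H - f (colSwap {b, e} x y H))|
        ≤ ∑ H ∈ univ.filter (fun H => RelP a e G H), |f H - f (colSwap {b, e} x y H)| :=
          Finset.abs_sum_le_sum_abs _ _
      _ ≤ ∑ H ∈ univ.filter (fun H => RelP a e G H), LB := by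
          apply Finset.sum_le_sum
          intro H hH
          simp only [mem_filter, mem_univ, true_and] at hH
          obtain ⟨h1, h2, h3, h4, h5⟩ := ci_F a b e hab hae hbe G x y hax hay hbx hby hex hey hH
          apply hB1 H x y
            (ci_one_fwd a b e hab hae hbe G x y hax hay hbx hby hex hey hH).1
          rw [h1, h3]
          simp
      _ = ((univ.filter (fun H => RelP a e G H)).card : ℝ) * LB := by
          rw [Finset.sum_const, nsmul_eq_mul]

end CaseI

end Vale.Agent.H66
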