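import Vale.Agent.H66.KTV.PairAlg

/-!
The pair inequality on Johnson graphs (weak form of Step 4 of the simple-graph argument).

For a centred function `f` on the `k`-subsets `T` of a finite type, and the sets
`S_wz = {T | exactly one of w, z lies in T}`,
`sum over ordered pairs (w, z) of (sum over S_wz of f)^2 <= N * (sum over ordered pairs (w, z) and
T with w in T, z not in T of (f T - f (T with w, z exchanged))^2)`, `N = C(D - 2, k - 1)`.
The proof uses only the Cauchy-Schwarz inequality along single exchanges.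
-/

namespace Vale.Agent.H66

open Finset

set_option linter.unusedSectionVars false
set_option linter.unusedVariables false

variable {ι : Type*} [DecidableEq ι]

/-- Indicator of membership, as a real number. -/
def ind (c : ι) (T : Finset ι) : ℝ := if c ∈ T then 1 else 0

/-- Image of a finite set under the transposition of `w` and `z`. -/
def swapSet (w z : ι) (T : Finset ι) : Finset ι := T.map (Equiv.swap w z).toEmbedding

theorem ind_mul_self (c : ι) (T : Finset ι) : ind c T * ind c T = ind c T := by
  unfold ind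
  split_ifs <;> simp

theorem ind_nonneg (c : ι) (T : Finset ι) : 0 ≤ ind c T := by
  unfold ind
  split_ifs <;> simp

theorem ind_le_one (c : ι) (T : Finset ι) : ind c T ≤ 1 := by
  unfold ind
  split_ifs <;> simp

theorem mem_swapSet (w z c : ι) (T : Finset ι) : c ∈ swapSet w z T ↔ Equiv.swap w z c ∈ T := by
  unfold swapSet
  rw [Finset.mem_map_equiv, Equiv.symm_swap]

theorem ind_swapSet (w z c : ι) (T : Finset ι) :
    ind c (swapSet w z T) = ind (Equiv.swap w z c) T := by
  unfold ind
  simp only [mem_swapSet]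

theorem swapSet_swapSet (w z : ι) (T : Finset ι) : swapSet w z (swapSet w z T) = T := by
  ext c
  simp [mem_swapSet]

theorem card_swapSet (w z : ι) (T : Finset ι) : (swapSet w z T).card = T.card := by
  unfold swapSet
  exact Finset.card_map _

/-- Cauchy-Schwarz with a zero-one weight. -/
theorem cs_weight {α : Type*} (s : Finset α) (c d : α → ℝ) (hc : ∀ T, c T * c T = c T) :
    (∑ T ∈ s, c T * d T) ^ 2 ≤ (∑ T ∈ s, c T) * ∑ T ∈ s, c T * d T ^ 2 := by
  have h := Finset.sum_mul_sq_le_sq_mul_sq s c (fun T => c T * d T)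
  have e1 : ∑ T ∈ s, c T * (c T * d T) = ∑ T ∈ s, c T * d T :=
    Finset.sum_congr rfl (fun T _ => by rw [← mul_assoc, hc])
  have e2 : ∑ T ∈ s, c T ^ 2 = ∑ T ∈ s, c T :=
    Finset.sum_congr rfl (fun T _ => by rw [sq, hc])
  have e3 : ∑ T ∈ s, (c T * d T) ^ 2 = ∑ T ∈ s, c T * d T ^ 2 :=
    Finset.sum_congr rfl (fun T _ => by rw [mul_pow, sq (c T), hc])
  rw [e1, e2, e3] at h
  exact h

theorem ind_weight_idem (w z y : ι) (T : Finset ι) :
    (ind w T * (1 - ind z T) * ind y T) * (ind w T * (1 - ind z T) * ind y T)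
      = ind w T * (1 - ind z T) * ind y T := by
  unfold ind
  split_ifs <;> norm_num

theorem ind_weight_idem' (w z y : ι) (T : Finset ι) :
    (ind w T * (1 - ind z T) * (1 - ind y T)) * (ind w T * (1 - ind z T) * (1 - ind y T))
      = ind w T * (1 - ind z T) * (1 - ind y T) := by
  unfold ind
  split_ifs <;> norm_num

theorem ind_pair_nonneg (w z : ι) (T : Finset ι) : 0 ≤ ind w T * (1 - ind z T) :=
  mul_nonneg (ind_nonneg w T) (sub_nonneg.mpr (ind_le_one z T))

/-- The weight of the left side is the indicator of `exactly one of w, z lies in T`. -/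
theorem ind_sub_sq (w z : ι) (T : Finset ι) :
    (ind w T - ind z T) ^ 2 = if (w ∈ T ∧ z ∉ T) ∨ (z ∈ T ∧ w ∉ T) then 1 else 0 := by
  unfold ind
  by_cases h1 : w ∈ T <;> by_cases h2 : z ∈ T <;> simp [h1, h2]

/-- The weight of the right side is the indicator of `w in T, z not in T`. -/
theorem ind_mul_one_sub (w z : ι) (T : Finset ι) :
    ind w T * (1 - ind z T) = if w ∈ T ∧ z ∉ T then 1 else 0 := by
  unfold ind
  by_cases h1 : w ∈ T <;> by_cases h2 : z ∈ T <;> simp [h1, h2]

/-- For `w ∈ T`, `z ∉ T` the exchanged set is `T` with `w` replaced by `z`. -/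
theorem swapSet_eq (w z : ι) (T : Finset ι) (hw : w ∈ T) (hz : z ∉ T) :
    swapSet w z T = insert z (T.erase w) := by
  have hwz : w ≠ z := fun h => hz (h ▸ hw)
  ext c
  rw [mem_swapSet, Finset.mem_insert, Finset.mem_erase]
  by_cases hcw : c = w
  · subst hcw
    rw [Equiv.swap_apply_left]
    simp [hz, hwz]
  · by_cases hcz : c = z
    · subst hcz
      rw [Equiv.swap_apply_right]
      simp [hw]
    · rw [Equiv.swap_apply_of_ne_of_ne hcw hcz]
      simp [hcw, hcz]

variable [Fintype ι]

theorem sum_swapSet (k : ℕ) (w z : ι) (g : Finset ι → ℝ) :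
    ∑ T ∈ (univ : Finset ι).powersetCard k, g (swapSet w z T)
      = ∑ T ∈ (univ : Finset ι).powersetCard k, g T := by
  apply Finset.sum_bij' (fun T _ => swapSet w z T) (fun T _ => swapSet w z T)
  · intro T hT
    rw [Finset.mem_powersetCard] at hT ⊢
    exact ⟨Finset.subset_univ _, by rw [card_swapSet]; exact hT.2⟩
  · intro T hT
    rw [Finset.mem_powersetCard] at hT ⊢
    exact ⟨Finset.subset_univ _, by rw [card_swapSet]; exact hT.2⟩
  · intro T _
    exact swapSet_swapSet w z T
  · intro T _
    exact swapSet_swapSet w z T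
  · intro T _
    rfl

theorem sum_ind (T : Finset ι) : ∑ c, ind c T = (T.card : ℝ) := by
  unfold ind
  rw [Finset.sum_boole]
  congr 2
  ext c
  simp

/-- First order marginals. -/
def sMarg (k : ℕ) (f : Finset ι → ℝ) (c : ι) : ℝ :=
  ∑ T ∈ (univ : Finset ι).powersetCard k, ind c T * f T

/-- Second order marginals. -/
def tMarg (k : ℕ) (f : Finset ι → ℝ) (a b : ι) : ℝ :=
  ∑ T ∈ (univ : Finset ι).powersetCard k, ind a T * ind b T * f T

theorem tMarg_symm (k : ℕ) (f : Finset ι → ℝ) (a b : ι) : tMarg k f a b = tMarg k f b a := by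
  unfold tMarg
  exact Finset.sum_congr rfl (fun T _ => by ring)

theorem tMarg_diag (k : ℕ) (f : Finset ι → ℝ) (a : ι) : tMarg k f a a = sMarg k f a := by
  unfold tMarg sMarg
  exact Finset.sum_congr rfl (fun T _ => by rw [ind_mul_self])

theorem sum_sMarg (k : ℕ) (f : Finset ι → ℝ) :
    ∑ c, sMarg k f c = (k : ℝ) * ∑ T ∈ (univ : Finset ι).powersetCard k, f T := by
  unfold sMarg
  rw [Finset.sum_comm, Finset.mul_sum]
  refine Finset.sum_congr rfl (fun T hT => ?_)
  rw [← Finset.sum_mul, sum_ind, (Finset.mem_powersetCard.mp hT).2]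

theorem sum_tMarg (k : ℕ) (f : Finset ι → ℝ) (b : ι) :
    ∑ a, tMarg k f a b = (k : ℝ) * sMarg k f b := by
  unfold sMarg tMarg
  rw [Finset.sum_comm, Finset.mul_sum]
  refine Finset.sum_congr rfl (fun T hT => ?_)
  rw [← Finset.sum_mul, ← Finset.sum_mul, sum_ind, (Finset.mem_powersetCard.mp hT).2]
  ring

theorem pair_sum_eq (k : ℕ) (f : Finset ι → ℝ) (w z : ι) :
    ∑ T ∈ (univ : Finset ι).powersetCard k, (ind w T - ind z T) ^ 2 * f T
      = sMarg k f w + sMarg k f z - 2 * tMarg k f w z := by
  unfold sMarg tMarg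
  rw [Finset.mul_sum, ← Finset.sum_add_distrib, ← Finset.sum_sub_distrib]
  refine Finset.sum_congr rfl (fun T _ => ?_)
  have h1 := ind_mul_self w T
  have h2 := ind_mul_self z T
  linear_combination (f T) * h1 + (f T) * h2

/-- The alternating sums along the exchange of `w, z`, split by a third element `y`. -/
theorem alpha_eq (k : ℕ) (f : Finset ι → ℝ) (w z y : ι) (hwz : w ≠ z) (hyw : y ≠ w)
    (hyz : y ≠ z) :
    ∑ T ∈ (univ : Finset ι).powersetCard k,
        ind w T * (1 - ind z T) * ind y T * (f T - f (swapSet w z T))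
      = tMarg k f w y - tMarg k f z y := by
  have h1 : ∑ T ∈ (univ : Finset ι).powersetCard k,
      ind w T * (1 - ind z T) * ind y T * f (swapSet w z T)
      = ∑ T ∈ (univ : Finset ι).powersetCard k, ind z T * (1 - ind w T) * ind y T * f T := by
    rw [← sum_swapSet k w z (fun T => ind z T * (1 - ind w T) * ind y T * f T)]
    refine Finset.sum_congr rfl (fun T _ => ?_)
    rw [ind_swapSet, ind_swapSet, ind_swapSet, Equiv.swap_apply_right, Equiv.swap_apply_left,
      Equiv.swap_apply_of_ne_of_ne hyw hyz]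
  have h2 : ∀ T, ind w T * (1 - ind z T) * ind y T * (f T - f (swapSet w z T))
      = ind w T * (1 - ind z T) * ind y T * f T
        - ind w T * (1 - ind z T) * ind y T * f (swapSet w z T) := fun T => by ring
  simp only [h2, Finset.sum_sub_distrib]
  rw [h1]
  unfold tMarg
  rw [← Finset.sum_sub_distrib, ← Finset.sum_sub_distrib]
  exact Finset.sum_congr rfl (fun T _ => by ring)

theorem beta_eq (k : ℕ) (f : Finset ι → ℝ) (w z y : ι) (hwz : w ≠ z) (hyw : y ≠ w)
    (hyz : y ≠ z) :
    ∑ T ∈ (univ : Finset ι).powersetCard k,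
        ind w T * (1 - ind z T) * (1 - ind y T) * (f T - f (swapSet w z T))
      = (sMarg k f w - sMarg k f z) - (tMarg k f w y - tMarg k f z y) := by
  have h1 : ∑ T ∈ (univ : Finset ι).powersetCard k,
      ind w T * (1 - ind z T) * (1 - ind y T) * f (swapSet w z T)
      = ∑ T ∈ (univ : Finset ι).powersetCard k,
          ind z T * (1 - ind w T) * (1 - ind y T) * f T := by
    rw [← sum_swapSet k w z (fun T => ind z T * (1 - ind w T) * (1 - ind y T) * f T)]
    refine Finset.sum_congr rfl (fun T _ => ?_)
    rw [ind_swapSet, ind_swapSet, ind_swapSet, Equiv.swap_apply_right, Equiv.swap_apply_left,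
      Equiv.swap_apply_of_ne_of_ne hyw hyz]
  have h2 : ∀ T, ind w T * (1 - ind z T) * (1 - ind y T) * (f T - f (swapSet w z T))
      = ind w T * (1 - ind z T) * (1 - ind y T) * f T
        - ind w T * (1 - ind z T) * (1 - ind y T) * f (swapSet w z T) := fun T => by ring
  simp only [h2, Finset.sum_sub_distrib]
  rw [h1]
  unfold tMarg sMarg
  simp only [← Finset.sum_sub_distrib]
  exact Finset.sum_congr rfl (fun T _ => by ring)

/-- The number of `k`-sets containing `w` and not `z`, as a sum of indicators. -/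
theorem count_eq_card (k : ℕ) (w z : ι) :
    ∑ T ∈ (univ : Finset ι).powersetCard k, ind w T * (1 - ind z T)
      = ((((univ : Finset ι).powersetCard k).filter (fun T => w ∈ T ∧ z ∉ T)).card : ℝ) := by
  rw [Finset.card_filter]
  push_cast
  refine Finset.sum_congr rfl (fun T _ => ?_)
  unfold ind
  by_cases h1 : w ∈ T <;> by_cases h2 : z ∈ T <;> simp [h1, h2]

theorem card_erase_erase (w z : ι) (hwz : w ≠ z) :
    (((univ : Finset ι).erase w).erase z).card = Fintype.card ι - 2 := by
  rw [Finset.card_erase_of_mem (by simp [Ne.symm hwz]), Finset.card_erase_of_mem (mem_univ w),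
    Finset.card_univ]
  omega

/-- The number of `k`-sets containing `w` and not `z` (for `w ≠ z`, `1 ≤ k`). -/
theorem card_pair_filter (k : ℕ) (hk : 1 ≤ k) (w z : ι) (hwz : w ≠ z) :
    (((univ : Finset ι).powersetCard k).filter (fun T => w ∈ T ∧ z ∉ T)).card
      = (Fintype.card ι - 2).choose (k - 1) := by
  rw [← card_erase_erase w z hwz, ← Finset.card_powersetCard]
  refine Finset.card_bij' (fun T _ => T.erase w) (fun U _ => insert w U) ?_ ?_ ?_ ?_
  · intro T hT
    rw [Finset.mem_filter, Finset.mem_powersetCard] at hT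
    rw [Finset.mem_powersetCard]
    refine ⟨?_, ?_⟩
    · intro c hc
      rw [Finset.mem_erase] at hc
      rw [Finset.mem_erase, Finset.mem_erase]
      refine ⟨?_, hc.1, mem_univ c⟩
      rintro rfl
      exact hT.2.2 hc.2
    · rw [Finset.card_erase_of_mem hT.2.1, hT.1.2]
  · intro U hU
    rw [Finset.mem_powersetCard] at hU
    have hwU : w ∉ U := fun h => by
      have := hU.1 h
      simp at this
    have hzU : z ∉ U := fun h => by
      have := hU.1 h
      simp at this
    rw [Finset.mem_filter, Finset.mem_powersetCard]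
    refine ⟨⟨Finset.subset_univ _, ?_⟩, Finset.mem_insert_self w U, ?_⟩
    · rw [Finset.card_insert_of_notMem hwU, hU.2]
      omega
    · rw [Finset.mem_insert]
      rintro (h | h)
      · exact hwz h.symm
      · exact hzU h
  · intro T hT
    rw [Finset.mem_filter] at hT
    exact Finset.insert_erase hT.2.1
  · intro U hU
    rw [Finset.mem_powersetCard] at hU
    have hwU : w ∉ U := fun h => by
      have := hU.1 h
      simp at this
    exact Finset.erase_insert hwU

theorem count_le (k : ℕ) (w z : ι) :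
    ∑ T ∈ (univ : Finset ι).powersetCard k, ind w T * (1 - ind z T)
      ≤ ((Fintype.card ι - 2).choose (k - 1) : ℝ) := by
  by_cases hwz : w = z
  · subst hwz
    have h0 : ∀ T : Finset ι, ind w T * (1 - ind w T) = 0 := fun T => by
      have := ind_mul_self w T
      linear_combination -this
    simp only [h0, Finset.sum_const_zero]
    exact Nat.cast_nonneg _
  · rw [count_eq_card]
    by_cases hk : 1 ≤ k
    · rw [card_pair_filter k hk w z hwz]
    · have hk0 : k = 0 := by omega
      subst hk0
      have : (((univ : Finset ι).powersetCard 0).filter (fun T => w ∈ T ∧ z ∉ T)) = ∅ := by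
        ext T
        simp only [Finset.powersetCard_zero, Finset.mem_filter, Finset.mem_singleton,
          Finset.notMem_empty, iff_false, not_and]
        rintro rfl
        simp
      rw [this]
      simp

theorem triple_le (k : ℕ) (f : Finset ι → ℝ) (w z y : ι) (hyw : y ≠ w) (hyz : y ≠ z) :
    (tMarg k f w y - tMarg k f z y) ^ 2
        + ((sMarg k f w - sMarg k f z) - (tMarg k f w y - tMarg k f z y)) ^ 2
      ≤ ((Fintype.card ι - 2).choose (k - 1) : ℝ) *
        ∑ T ∈ (univ : Finset ι).powersetCard k,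
          ind w T * (1 - ind z T) * (f T - f (swapSet w z T)) ^ 2 := by
  have hE : 0 ≤ ∑ T ∈ (univ : Finset ι).powersetCard k,
      ind w T * (1 - ind z T) * (f T - f (swapSet w z T)) ^ 2 :=
    Finset.sum_nonneg (fun T _ => mul_nonneg (ind_pair_nonneg w z T) (sq_nonneg _))
  by_cases hwz : w = z
  · subst hwz
    have h0 : (tMarg k f w y - tMarg k f w y) ^ 2
        + ((sMarg k f w - sMarg k f w) - (tMarg k f w y - tMarg k f w y)) ^ 2 = 0 := by ring
    rw [h0]
    exact mul_nonneg (Nat.cast_nonneg _) hE
  · rw [← beta_eq k f w z y hwz hyw hyz, ← alpha_eq k f w z y hwz hyw hyz]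
    have c1 := cs_weight ((univ : Finset ι).powersetCard k)
      (fun T => ind w T * (1 - ind z T) * ind y T) (fun T => f T - f (swapSet w z T))
      (fun T => ind_weight_idem w z y T)
    have c2 := cs_weight ((univ : Finset ι).powersetCard k)
      (fun T => ind w T * (1 - ind z T) * (1 - ind y T)) (fun T => f T - f (swapSet w z T))
      (fun T => ind_weight_idem' w z y T)
    have n1 : ∑ T ∈ (univ : Finset ι).powersetCard k, ind w T * (1 - ind z T) * ind y T
        ≤ ((Fintype.card ι - 2).choose (k - 1) : ℝ) := by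
      refine le_trans (Finset.sum_le_sum (fun T _ => ?_)) (count_le k w z)
      exact mul_le_of_le_one_right (ind_pair_nonneg w z T) (ind_le_one y T)
    have n2 : ∑ T ∈ (univ : Finset ι).powersetCard k, ind w T * (1 - ind z T) * (1 - ind y T)
        ≤ ((Fintype.card ι - 2).choose (k - 1) : ℝ) := by
      refine le_trans (Finset.sum_le_sum (fun T _ => ?_)) (count_le k w z)
      exact mul_le_of_le_one_right (ind_pair_nonneg w z T)
        (by linarith [ind_nonneg y T])
    have p1 : 0 ≤ ∑ T ∈ (univ : Finset ι).powersetCard k,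
        ind w T * (1 - ind z T) * ind y T * (f T - f (swapSet w z T)) ^ 2 :=
      Finset.sum_nonneg (fun T _ => mul_nonneg
        (mul_nonneg (ind_pair_nonneg w z T) (ind_nonneg y T)) (sq_nonneg _))
    have p2 : 0 ≤ ∑ T ∈ (univ : Finset ι).powersetCard k,
        ind w T * (1 - ind z T) * (1 - ind y T) * (f T - f (swapSet w z T)) ^ 2 :=
      Finset.sum_nonneg (fun T _ => mul_nonneg
        (mul_nonneg (ind_pair_nonneg w z T) (sub_nonneg.mpr (ind_le_one y T))) (sq_nonneg _))
    have hsum : ∑ T ∈ (univ : Finset ι).powersetCard k,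
          ind w T * (1 - ind z T) * ind y T * (f T - f (swapSet w z T)) ^ 2
        + ∑ T ∈ (univ : Finset ι).powersetCard k,
          ind w T * (1 - ind z T) * (1 - ind y T) * (f T - f (swapSet w z T)) ^ 2
        = ∑ T ∈ (univ : Finset ι).powersetCard k,
          ind w T * (1 - ind z T) * (f T - f (swapSet w z T)) ^ 2 := by
      rw [← Finset.sum_add_distrib]
      exact Finset.sum_congr rfl (fun T _ => by ring)
    have q1 := mul_le_mul_of_nonneg_right n1 p1
    have q2 := mul_le_mul_of_nonneg_right n2 p2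
    rw [← hsum, mul_add]
    linarith

/-- The pair inequality on the Johnson graph (weak form): for a centred `f` on `k`-subsets. -/
theorem johnson_pair_weak (k : ℕ) (f : Finset ι → ℝ)
    (hf : ∑ T ∈ (univ : Finset ι).powersetCard k, f T = 0) :
    ∑ w, ∑ z, (∑ T ∈ (univ : Finset ι).powersetCard k, (ind w T - ind z T) ^ 2 * f T) ^ 2
      ≤ ((Fintype.card ι - 2).choose (k - 1) : ℝ) *
        ∑ w, ∑ z, ∑ T ∈ (univ : Finset ι).powersetCard k,
          ind w T * (1 - ind z T) * (f T - f (swapSet w z T)) ^ 2 := by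
  have hN0 : (0 : ℝ) ≤ ((Fintype.card ι - 2).choose (k - 1) : ℝ) := Nat.cast_nonneg _
  have hE : ∀ w z : ι, 0 ≤ ∑ T ∈ (univ : Finset ι).powersetCard k,
      ind w T * (1 - ind z T) * (f T - f (swapSet w z T)) ^ 2 :=
    fun w z => Finset.sum_nonneg (fun T _ => mul_nonneg (ind_pair_nonneg w z T) (sq_nonneg _))
  simp only [pair_sum_eq]
  have halg := pair_alg (sMarg k f) (tMarg k f) (k : ℝ) (tMarg_symm k f) (tMarg_diag k f)
    (by rw [sum_sMarg, hf, mul_zero]) (sum_tMarg k f)
  have hsign : 0 ≤ (4 * (k : ℝ) * ((Fintype.card ι : ℝ) - k) - 2 * (Fintype.card ι : ℝ))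
      * ∑ a, sMarg k f a ^ 2 := by
    by_cases hk0 : k = 0
    · have hs0 : ∀ a, sMarg k f a = 0 := by
        intro a
        unfold sMarg
        subst hk0
        simp [ind]
      simp [hs0]
    · by_cases hkD : Fintype.card ι ≤ k
      · have hs0 : ∀ a, sMarg k f a = 0 := by
          intro a
          unfold sMarg
          rw [← hf]
          refine Finset.sum_congr rfl (fun T hT => ?_)
          have hT' := Finset.mem_powersetCard.mp hT
          have hTu : T = univ := by
            apply Finset.eq_univ_of_card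
            exact le_antisymm (Finset.card_le_univ T) (by rw [hT'.2]; exact hkD)
          rw [hTu]
          simp [ind]
        simp [hs0]
      · apply mul_nonneg _ (Finset.sum_nonneg (fun a _ => sq_nonneg _))
        have h1 : (1 : ℝ) ≤ (k : ℝ) := by
          exact_mod_cast Nat.one_le_iff_ne_zero.mpr hk0
        have h2 : (k : ℝ) + 1 ≤ (Fintype.card ι : ℝ) := by
          have hkD' : k + 1 ≤ Fintype.card ι := not_le.mp hkD
          exact_mod_cast hkD'
        nlinarith [mul_nonneg (sub_nonneg.mpr h1)
          (by linarith : (0 : ℝ) ≤ (Fintype.card ι : ℝ) - k - 1)]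
  have hbound : ∑ w, ∑ z, ∑ y ∈ ((univ : Finset ι).erase w).erase z,
        ((tMarg k f w y - tMarg k f z y) ^ 2
          + ((sMarg k f w - sMarg k f z) - (tMarg k f w y - tMarg k f z y)) ^ 2)
      ≤ ((Fintype.card ι : ℝ) - 1) * (((Fintype.card ι - 2).choose (k - 1) : ℝ) *
        ∑ w, ∑ z, ∑ T ∈ (univ : Finset ι).powersetCard k,
          ind w T * (1 - ind z T) * (f T - f (swapSet w z T)) ^ 2) := by
    rw [Finset.mul_sum, Finset.mul_sum]
    refine Finset.sum_le_sum (fun w _ => ?_)
    rw [Finset.mul_sum, Finset.mul_sum]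
    refine Finset.sum_le_sum (fun z _ => ?_)
    have h1 : ∑ y ∈ ((univ : Finset ι).erase w).erase z,
        ((tMarg k f w y - tMarg k f z y) ^ 2
          + ((sMarg k f w - sMarg k f z) - (tMarg k f w y - tMarg k f z y)) ^ 2)
        ≤ ∑ y ∈ ((univ : Finset ι).erase w).erase z,
          ((Fintype.card ι - 2).choose (k - 1) : ℝ) *
            ∑ T ∈ (univ : Finset ι).powersetCard k,
              ind w T * (1 - ind z T) * (f T - f (swapSet w z T)) ^ 2 := by
      refine Finset.sum_le_sum (fun y hy => ?_)
      rw [Finset.mem_erase, Finset.mem_erase] at hy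
      exact triple_le k f w z y hy.2.1 hy.1
    refine h1.trans ?_
    rw [Finset.sum_const, nsmul_eq_mul]
    have hcard : ((((univ : Finset ι).erase w).erase z).card : ℝ) ≤ (Fintype.card ι : ℝ) - 1 := by
      have h2 : (((univ : Finset ι).erase w).erase z).card ≤ ((univ : Finset ι).erase w).card :=
        Finset.card_le_card (Finset.erase_subset _ _)
      rw [Finset.card_erase_of_mem (mem_univ w), Finset.card_univ] at h2
      have h3 : 1 ≤ Fintype.card ι := Fintype.card_pos_iff.mpr ⟨w⟩
      have h4 : ((Fintype.card ι - 1 : ℕ) : ℝ) = (Fintype.card ι : ℝ) - 1 := by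
        rw [Nat.cast_sub h3]
        simp
      rw [← h4]
      exact_mod_cast h2
    exact mul_le_mul_of_nonneg_right hcard (mul_nonneg hN0 (hE w z))
  by_cases hD1 : Fintype.card ι ≤ 1
  · have hsub : ∀ w z : ι, w = z := fun w z => Fintype.card_le_one_iff.mp hD1 w z
    have hz : ∑ w, ∑ z, (sMarg k f w + sMarg k f z - 2 * tMarg k f w z) ^ 2 = 0 := by
      apply Finset.sum_eq_zero
      intro w _
      apply Finset.sum_eq_zero
      intro z _
      rw [hsub z w, tMarg_diag]
      ring
    rw [hz]
    exact mul_nonneg hN0 (Finset.sum_nonneg (fun w _ => Finset.sum_nonneg (fun z _ => hE w z)))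
  · have hD2 : (0 : ℝ) < (Fintype.card ι : ℝ) - 1 := by
      have hD1' : 1 < Fintype.card ι := not_le.mp hD1
      have : (1 : ℝ) < (Fintype.card ι : ℝ) := by exact_mod_cast hD1'
      linarith
    have hfin : ((Fintype.card ι : ℝ) - 1)
        * ∑ w, ∑ z, (sMarg k f w + sMarg k f z - 2 * tMarg k f w z) ^ 2
        ≤ ((Fintype.card ι : ℝ) - 1) * (((Fintype.card ι - 2).choose (k - 1) : ℝ) *
          ∑ w, ∑ z, ∑ T ∈ (univ : Finset ι).powersetCard k,
            ind w T * (1 - ind z T) * (f T - f (swapSet w z T)) ^ 2) := by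
      linarith
    exact le_of_mul_le_mul_left hfin hD2

/-- The same with an arbitrary function and its mean `m` subtracted on the left. -/
theorem johnson_pair_weak' (k : ℕ) (f : Finset ι → ℝ) (m : ℝ)
    (hm : ∑ T ∈ (univ : Finset ι).powersetCard k, (f T - m) = 0) :
    ∑ w, ∑ z,
        (∑ T ∈ (univ : Finset ι).powersetCard k, (ind w T - ind z T) ^ 2 * (f T - m)) ^ 2
      ≤ ((Fintype.card ι - 2).choose (k - 1) : ℝ) *
        ∑ w, ∑ z, ∑ T ∈ (univ : Finset ι).powersetCard k,
          ind w T * (1 - ind z T) * (f T - f (swapSet w z T)) ^ 2 := by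
  have h := johnson_pair_weak k (fun T => f T - m) hm
  have e : ∀ (w z : ι) (T : Finset ι),
      (f T - m - (f (swapSet w z T) - m)) = f T - f (swapSet w z T) := fun w z T => by ring
  simp only [e] at h
  exact h

end Vale.Agent.H66
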