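import Vale.Agent.H66.KTV.PairAlgOn
import Vale.Agent.H66.KTV.JohnsonPair

/-!
The pair inequality on Johnson graphs (weak form) for the `k`-subsets of a finite set `A` of an
arbitrary type: same statement and proof as in `JohnsonPair`, with all sums restricted to `A`.
-/

namespace Vale.Agent.H66

open Finset

set_option linter.unusedSectionVars false
set_option linter.unusedVariables false

variable {ι : Type*} [DecidableEq ι]

theorem swapSet_subset (A : Finset ι) (w z : ι) (hw : w ∈ A) (hz : z ∈ A) (T : Finset ι)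
    (hT : T ⊆ A) : swapSet w z T ⊆ A := by
  intro c hc
  rw [mem_swapSet] at hc
  by_cases hcw : c = w
  · rw [hcw]
    exact hw
  · by_cases hcz : c = z
    · rw [hcz]
      exact hz
    · rw [Equiv.swap_apply_of_ne_of_ne hcw hcz] at hc
      exact hT hc

theorem sum_swapSet_on (A : Finset ι) (k : ℕ) (w z : ι) (hw : w ∈ A) (hz : z ∈ A)
    (g : Finset ι → ℝ) :
    ∑ T ∈ A.powersetCard k, g (swapSet w z T) = ∑ T ∈ A.powersetCard k, g T := by
  apply Finset.sum_bij' (fun T _ => swapSet w z T) (fun T _ => swapSet w z T)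
  · intro T hT
    rw [Finset.mem_powersetCard] at hT ⊢
    exact ⟨swapSet_subset A w z hw hz T hT.1, by rw [card_swapSet]; exact hT.2⟩
  · intro T hT
    rw [Finset.mem_powersetCard] at hT ⊢
    exact ⟨swapSet_subset A w z hw hz T hT.1, by rw [card_swapSet]; exact hT.2⟩
  · intro T _
    exact swapSet_swapSet w z T
  · intro T _
    exact swapSet_swapSet w z T
  · intro T _
    rfl

theorem sum_ind_on (A T : Finset ι) (hT : T ⊆ A) : ∑ c ∈ A, ind c T = (T.card : ℝ) := by
  unfold ind
  rw [Finset.sum_boole]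
  congr 2
  ext c
  simp only [Finset.mem_filter]
  exact ⟨fun h => h.2, fun h => ⟨hT h, h⟩⟩

/-- First order marginals on `A`. -/
def sMargOn (A : Finset ι) (k : ℕ) (f : Finset ι → ℝ) (c : ι) : ℝ :=
  ∑ T ∈ A.powersetCard k, ind c T * f T

/-- Second order marginals on `A`. -/
def tMargOn (A : Finset ι) (k : ℕ) (f : Finset ι → ℝ) (a b : ι) : ℝ :=
  ∑ T ∈ A.powersetCard k, ind a T * ind b T * f T

theorem tMargOn_symm (A : Finset ι) (k : ℕ) (f : Finset ι → ℝ) (a b : ι) :
    tMargOn A k f a b = tMargOn A k f b a := by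
  unfold tMargOn
  exact Finset.sum_congr rfl (fun T _ => by ring)

theorem tMargOn_diag (A : Finset ι) (k : ℕ) (f : Finset ι → ℝ) (a : ι) :
    tMargOn A k f a a = sMargOn A k f a := by
  unfold tMargOn sMargOn
  exact Finset.sum_congr rfl (fun T _ => by rw [ind_mul_self])

theorem sum_sMargOn (A : Finset ι) (k : ℕ) (f : Finset ι → ℝ) :
    ∑ c ∈ A, sMargOn A k f c = (k : ℝ) * ∑ T ∈ A.powersetCard k, f T := by
  unfold sMargOn
  rw [Finset.sum_comm, Finset.mul_sum]
  refine Finset.sum_congr rfl (fun T hT => ?_)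
  rw [← Finset.sum_mul, sum_ind_on A T (Finset.mem_powersetCard.mp hT).1,
    (Finset.mem_powersetCard.mp hT).2]

theorem sum_tMargOn (A : Finset ι) (k : ℕ) (f : Finset ι → ℝ) (b : ι) :
    ∑ a ∈ A, tMargOn A k f a b = (k : ℝ) * sMargOn A k f b := by
  unfold sMargOn tMargOn
  rw [Finset.sum_comm, Finset.mul_sum]
  refine Finset.sum_congr rfl (fun T hT => ?_)
  rw [← Finset.sum_mul, ← Finset.sum_mul, sum_ind_on A T (Finset.mem_powersetCard.mp hT).1,
    (Finset.mem_powersetCard.mp hT).2]
  ring

theorem pair_sum_eq_on (A : Finset ι) (k : ℕ) (f : Finset ι → ℝ) (w z : ι) :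
    ∑ T ∈ A.powersetCard k, (ind w T - ind z T) ^ 2 * f T
      = sMargOn A k f w + sMargOn A k f z - 2 * tMargOn A k f w z := by
  unfold sMargOn tMargOn
  rw [Finset.mul_sum, ← Finset.sum_add_distrib, ← Finset.sum_sub_distrib]
  refine Finset.sum_congr rfl (fun T _ => ?_)
  have h1 := ind_mul_self w T
  have h2 := ind_mul_self z T
  linear_combination (f T) * h1 + (f T) * h2

theorem alpha_eq_on (A : Finset ι) (k : ℕ) (f : Finset ι → ℝ) (w z y : ι) (hw : w ∈ A)
    (hz : z ∈ A) (hwz : w ≠ z) (hyw : y ≠ w) (hyz : y ≠ z) :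
    ∑ T ∈ A.powersetCard k,
        ind w T * (1 - ind z T) * ind y T * (f T - f (swapSet w z T))
      = tMargOn A k f w y - tMargOn A k f z y := by
  have h1 : ∑ T ∈ A.powersetCard k,
      ind w T * (1 - ind z T) * ind y T * f (swapSet w z T)
      = ∑ T ∈ A.powersetCard k, ind z T * (1 - ind w T) * ind y T * f T := by
    rw [← sum_swapSet_on A k w z hw hz (fun T => ind z T * (1 - ind w T) * ind y T * f T)]
    refine Finset.sum_congr rfl (fun T _ => ?_)
    rw [ind_swapSet, ind_swapSet, ind_swapSet, Equiv.swap_apply_right, Equiv.swap_apply_left,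
      Equiv.swap_apply_of_ne_of_ne hyw hyz]
  have h2 : ∀ T, ind w T * (1 - ind z T) * ind y T * (f T - f (swapSet w z T))
      = ind w T * (1 - ind z T) * ind y T * f T
        - ind w T * (1 - ind z T) * ind y T * f (swapSet w z T) := fun T => by ring
  simp only [h2, Finset.sum_sub_distrib]
  rw [h1]
  unfold tMargOn
  rw [← Finset.sum_sub_distrib, ← Finset.sum_sub_distrib]
  exact Finset.sum_congr rfl (fun T _ => by ring)

theorem beta_eq_on (A : Finset ι) (k : ℕ) (f : Finset ι → ℝ) (w z y : ι) (hw : w ∈ A)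
    (hz : z ∈ A) (hwz : w ≠ z) (hyw : y ≠ w) (hyz : y ≠ z) :
    ∑ T ∈ A.powersetCard k,
        ind w T * (1 - ind z T) * (1 - ind y T) * (f T - f (swapSet w z T))
      = (sMargOn A k f w - sMargOn A k f z) - (tMargOn A k f w y - tMargOn A k f z y) := by
  have h1 : ∑ T ∈ A.powersetCard k,
      ind w T * (1 - ind z T) * (1 - ind y T) * f (swapSet w z T)
      = ∑ T ∈ A.powersetCard k, ind z T * (1 - ind w T) * (1 - ind y T) * f T := by
    rw [← sum_swapSet_on A k w z hw hz
      (fun T => ind z T * (1 - ind w T) * (1 - ind y T) * f T)]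
    refine Finset.sum_congr rfl (fun T _ => ?_)
    rw [ind_swapSet, ind_swapSet, ind_swapSet, Equiv.swap_apply_right, Equiv.swap_apply_left,
      Equiv.swap_apply_of_ne_of_ne hyw hyz]
  have h2 : ∀ T, ind w T * (1 - ind z T) * (1 - ind y T) * (f T - f (swapSet w z T))
      = ind w T * (1 - ind z T) * (1 - ind y T) * f T
        - ind w T * (1 - ind z T) * (1 - ind y T) * f (swapSet w z T) := fun T => by ring
  simp only [h2, Finset.sum_sub_distrib]
  rw [h1]
  unfold tMargOn sMargOn
  simp only [← Finset.sum_sub_distrib]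
  exact Finset.sum_congr rfl (fun T _ => by ring)

theorem count_eq_card_on (A : Finset ι) (k : ℕ) (w z : ι) :
    ∑ T ∈ A.powersetCard k, ind w T * (1 - ind z T)
      = (((A.powersetCard k).filter (fun T => w ∈ T ∧ z ∉ T)).card : ℝ) := by
  rw [Finset.card_filter]
  push_cast
  refine Finset.sum_congr rfl (fun T _ => ?_)
  unfold ind
  by_cases h1 : w ∈ T <;> by_cases h2 : z ∈ T <;> simp [h1, h2]

theorem card_erase_erase_on (A : Finset ι) (w z : ι) (hw : w ∈ A) (hz : z ∈ A) (hwz : w ≠ z) :
    ((A.erase w).erase z).card = A.card - 2 := by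
  rw [Finset.card_erase_of_mem (Finset.mem_erase.mpr ⟨Ne.symm hwz, hz⟩),
    Finset.card_erase_of_mem hw]
  omega

/-- The number of `k`-subsets of `A` containing `w` and not `z`. -/
theorem card_pair_filter_on (A : Finset ι) (k : ℕ) (hk : 1 ≤ k) (w z : ι) (hw : w ∈ A)
    (hz : z ∈ A) (hwz : w ≠ z) :
    ((A.powersetCard k).filter (fun T => w ∈ T ∧ z ∉ T)).card
      = (A.card - 2).choose (k - 1) := by
  rw [← card_erase_erase_on A w z hw hz hwz, ← Finset.card_powersetCard]
  refine Finset.card_bij' (fun T _ => T.erase w) (fun U _ => insert w U) ?_ ?_ ?_ ?_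
  · intro T hT
    rw [Finset.mem_filter, Finset.mem_powersetCard] at hT
    rw [Finset.mem_powersetCard]
    refine ⟨?_, ?_⟩
    · intro c hc
      rw [Finset.mem_erase] at hc
      rw [Finset.mem_erase, Finset.mem_erase]
      refine ⟨?_, hc.1, hT.1.1 hc.2⟩
      rintro rfl
      exact hT.2.2 hc.2
    · rw [Finset.card_erase_of_mem hT.2.1, hT.1.2]
  · intro U hU
    rw [Finset.mem_powersetCard] at hU
    have hwU : w ∉ U := fun h => by
      have := hU.1 h
      simp at this
    have hzU : z ∉ U := fun h => by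
      have := hU.1 h
      simp at this
    rw [Finset.mem_filter, Finset.mem_powersetCard]
    refine ⟨⟨?_, ?_⟩, Finset.mem_insert_self w U, ?_⟩
    · intro c hc
      rw [Finset.mem_insert] at hc
      rcases hc with rfl | hc
      · exact hw
      · have := hU.1 hc
        rw [Finset.mem_erase, Finset.mem_erase] at this
        exact this.2.2
    · rw [Finset.card_insert_of_notMem hwU, hU.2]
      omega
    · rw [Finset.mem_insert]
      rintro (h | h)
      · exact hwz h.symm
      · exact hzU h
  · intro T hT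
    rw [Finset.mem_filter] at hT
    exact Finset.insert_erase hT.2.1
  · intro U hU
    rw [Finset.mem_powersetCard] at hU
    have hwU : w ∉ U := fun h => by
      have := hU.1 h
      simp at this
    exact Finset.erase_insert hwU

theorem count_le_on (A : Finset ι) (k : ℕ) (w z : ι) (hw : w ∈ A) (hz : z ∈ A) :
    ∑ T ∈ A.powersetCard k, ind w T * (1 - ind z T)
      ≤ ((A.card - 2).choose (k - 1) : ℝ) := by
  by_cases hwz : w = z
  · subst hwz
    have h0 : ∀ T : Finset ι, ind w T * (1 - ind w T) = 0 := fun T => by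
      have := ind_mul_self w T
      linear_combination -this
    simp only [h0, Finset.sum_const_zero]
    exact Nat.cast_nonneg _
  · rw [count_eq_card_on]
    by_cases hk : 1 ≤ k
    · rw [card_pair_filter_on A k hk w z hw hz hwz]
    · have hk0 : k = 0 := by omega
      subst hk0
      have : ((A.powersetCard 0).filter (fun T => w ∈ T ∧ z ∉ T)) = ∅ := by
        ext T
        simp only [Finset.powersetCard_zero, Finset.mem_filter, Finset.mem_singleton,
          Finset.notMem_empty, iff_false, not_and]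
        rintro rfl
        simp
      rw [this]
      simp

theorem triple_le_on (A : Finset ι) (k : ℕ) (f : Finset ι → ℝ) (w z y : ι) (hw : w ∈ A)
    (hz : z ∈ A) (hyw : y ≠ w) (hyz : y ≠ z) :
    (tMargOn A k f w y - tMargOn A k f z y) ^ 2
        + ((sMargOn A k f w - sMargOn A k f z) - (tMargOn A k f w y - tMargOn A k f z y)) ^ 2
      ≤ ((A.card - 2).choose (k - 1) : ℝ) *
        ∑ T ∈ A.powersetCard k,
          ind w T * (1 - ind z T) * (f T - f (swapSet w z T)) ^ 2 := by
  have hE : 0 ≤ ∑ T ∈ A.powersetCard k,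
      ind w T * (1 - ind z T) * (f T - f (swapSet w z T)) ^ 2 :=
    Finset.sum_nonneg (fun T _ => mul_nonneg (ind_pair_nonneg w z T) (sq_nonneg _))
  by_cases hwz : w = z
  · subst hwz
    have h0 : (tMargOn A k f w y - tMargOn A k f w y) ^ 2
        + ((sMargOn A k f w - sMargOn A k f w)
          - (tMargOn A k f w y - tMargOn A k f w y)) ^ 2 = 0 := by ring
    rw [h0]
    exact mul_nonneg (Nat.cast_nonneg _) hE
  · rw [← beta_eq_on A k f w z y hw hz hwz hyw hyz, ← alpha_eq_on A k f w z y hw hz hwz hyw hyz]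
    have c1 := cs_weight (A.powersetCard k)
      (fun T => ind w T * (1 - ind z T) * ind y T) (fun T => f T - f (swapSet w z T))
      (fun T => ind_weight_idem w z y T)
    have c2 := cs_weight (A.powersetCard k)
      (fun T => ind w T * (1 - ind z T) * (1 - ind y T)) (fun T => f T - f (swapSet w z T))
      (fun T => ind_weight_idem' w z y T)
    have n1 : ∑ T ∈ A.powersetCard k, ind w T * (1 - ind z T) * ind y T
        ≤ ((A.card - 2).choose (k - 1) : ℝ) := by
      refine le_trans (Finset.sum_le_sum (fun T _ => ?_)) (count_le_on A k w z hw hz)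
      exact mul_le_of_le_one_right (ind_pair_nonneg w z T) (ind_le_one y T)
    have n2 : ∑ T ∈ A.powersetCard k, ind w T * (1 - ind z T) * (1 - ind y T)
        ≤ ((A.card - 2).choose (k - 1) : ℝ) := by
      refine le_trans (Finset.sum_le_sum (fun T _ => ?_)) (count_le_on A k w z hw hz)
      exact mul_le_of_le_one_right (ind_pair_nonneg w z T)
        (by linarith [ind_nonneg y T])
    have p1 : 0 ≤ ∑ T ∈ A.powersetCard k,
        ind w T * (1 - ind z T) * ind y T * (f T - f (swapSet w z T)) ^ 2 :=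
      Finset.sum_nonneg (fun T _ => mul_nonneg
        (mul_nonneg (ind_pair_nonneg w z T) (ind_nonneg y T)) (sq_nonneg _))
    have p2 : 0 ≤ ∑ T ∈ A.powersetCard k,
        ind w T * (1 - ind z T) * (1 - ind y T) * (f T - f (swapSet w z T)) ^ 2 :=
      Finset.sum_nonneg (fun T _ => mul_nonneg
        (mul_nonneg (ind_pair_nonneg w z T) (sub_nonneg.mpr (ind_le_one y T))) (sq_nonneg _))
    have hsum : ∑ T ∈ A.powersetCard k,
          ind w T * (1 - ind z T) * ind y T * (f T - f (swapSet w z T)) ^ 2
        + ∑ T ∈ A.powersetCard k,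
          ind w T * (1 - ind z T) * (1 - ind y T) * (f T - f (swapSet w z T)) ^ 2
        = ∑ T ∈ A.powersetCard k,
          ind w T * (1 - ind z T) * (f T - f (swapSet w z T)) ^ 2 := by
      rw [← Finset.sum_add_distrib]
      exact Finset.sum_congr rfl (fun T _ => by ring)
    have q1 := mul_le_mul_of_nonneg_right n1 p1
    have q2 := mul_le_mul_of_nonneg_right n2 p2
    rw [← hsum, mul_add]
    linarith

/-- The pair inequality on the Johnson graph of the `k`-subsets of `A` (weak form), for a
centred `f`. -/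
theorem johnson_pair_weak_on (A : Finset ι) (k : ℕ) (f : Finset ι → ℝ)
    (hf : ∑ T ∈ A.powersetCard k, f T = 0) :
    ∑ w ∈ A, ∑ z ∈ A, (∑ T ∈ A.powersetCard k, (ind w T - ind z T) ^ 2 * f T) ^ 2
      ≤ ((A.card - 2).choose (k - 1) : ℝ) *
        ∑ w ∈ A, ∑ z ∈ A, ∑ T ∈ A.powersetCard k,
          ind w T * (1 - ind z T) * (f T - f (swapSet w z T)) ^ 2 := by
  have hN0 : (0 : ℝ) ≤ ((A.card - 2).choose (k - 1) : ℝ) := Nat.cast_nonneg _
  have hE : ∀ w z : ι, 0 ≤ ∑ T ∈ A.powersetCard k,
      ind w T * (1 - ind z T) * (f T - f (swapSet w z T)) ^ 2 :=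
    fun w z => Finset.sum_nonneg (fun T _ => mul_nonneg (ind_pair_nonneg w z T) (sq_nonneg _))
  simp only [pair_sum_eq_on]
  have halg := pair_alg_on A (sMargOn A k f) (tMargOn A k f) (k : ℝ) (tMargOn_symm A k f)
    (tMargOn_diag A k f) (by rw [sum_sMargOn, hf, mul_zero]) (sum_tMargOn A k f)
  have hsign : 0 ≤ (4 * (k : ℝ) * ((A.card : ℝ) - k) - 2 * (A.card : ℝ))
      * ∑ a ∈ A, sMargOn A k f a ^ 2 := by
    by_cases hk0 : k = 0
    · have hs0 : ∀ a, sMargOn A k f a = 0 := by
        intro a
        unfold sMargOn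
        subst hk0
        simp [ind]
      simp [hs0]
    · by_cases hkD : A.card ≤ k
      · have hs0 : ∀ a ∈ A, sMargOn A k f a = 0 := by
          intro a ha
          unfold sMargOn
          rw [← hf]
          refine Finset.sum_congr rfl (fun T hT => ?_)
          have hT' := Finset.mem_powersetCard.mp hT
          have hTu : T = A :=
            Finset.eq_of_subset_of_card_le hT'.1 (by rw [hT'.2]; exact hkD)
          rw [hTu]
          simp [ind, ha]
        have : ∑ a ∈ A, sMargOn A k f a ^ 2 = 0 :=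
          Finset.sum_eq_zero (fun a ha => by rw [hs0 a ha]; ring)
        rw [this, mul_zero]
      · apply mul_nonneg _ (Finset.sum_nonneg (fun a _ => sq_nonneg _))
        have h1 : (1 : ℝ) ≤ (k : ℝ) := by
          exact_mod_cast Nat.one_le_iff_ne_zero.mpr hk0
        have h2 : (k : ℝ) + 1 ≤ (A.card : ℝ) := by
          have hkD' : k + 1 ≤ A.card := not_le.mp hkD
          exact_mod_cast hkD'
        nlinarith [mul_nonneg (sub_nonneg.mpr h1)
          (by linarith : (0 : ℝ) ≤ (A.card : ℝ) - k - 1)]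
  have hbound : ∑ w ∈ A, ∑ z ∈ A, ∑ y ∈ (A.erase w).erase z,
        ((tMargOn A k f w y - tMargOn A k f z y) ^ 2
          + ((sMargOn A k f w - sMargOn A k f z)
            - (tMargOn A k f w y - tMargOn A k f z y)) ^ 2)
      ≤ ((A.card : ℝ) - 1) * (((A.card - 2).choose (k - 1) : ℝ) *
        ∑ w ∈ A, ∑ z ∈ A, ∑ T ∈ A.powersetCard k,
          ind w T * (1 - ind z T) * (f T - f (swapSet w z T)) ^ 2) := by
    rw [Finset.mul_sum, Finset.mul_sum]
    refine Finset.sum_le_sum (fun w hw => ?_)
    rw [Finset.mul_sum, Finset.mul_sum]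
    refine Finset.sum_le_sum (fun z hz => ?_)
    have h1 : ∑ y ∈ (A.erase w).erase z,
        ((tMargOn A k f w y - tMargOn A k f z y) ^ 2
          + ((sMargOn A k f w - sMargOn A k f z)
            - (tMargOn A k f w y - tMargOn A k f z y)) ^ 2)
        ≤ ∑ y ∈ (A.erase w).erase z,
          ((A.card - 2).choose (k - 1) : ℝ) *
            ∑ T ∈ A.powersetCard k,
              ind w T * (1 - ind z T) * (f T - f (swapSet w z T)) ^ 2 := by
      refine Finset.sum_le_sum (fun y hy => ?_)
      rw [Finset.mem_erase, Finset.mem_erase] at hy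
      exact triple_le_on A k f w z y hw hz hy.2.1 hy.1
    refine h1.trans ?_
    rw [Finset.sum_const, nsmul_eq_mul]
    have hcard : ((((A.erase w).erase z).card : ℕ) : ℝ) ≤ (A.card : ℝ) - 1 := by
      have h2 : ((A.erase w).erase z).card ≤ (A.erase w).card :=
        Finset.card_le_card (Finset.erase_subset _ _)
      rw [Finset.card_erase_of_mem hw] at h2
      have h3 : 1 ≤ A.card := Finset.card_pos.mpr ⟨w, hw⟩
      have h4 : ((A.card - 1 : ℕ) : ℝ) = (A.card : ℝ) - 1 := by
        rw [Nat.cast_sub h3]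
        simp
      rw [← h4]
      exact_mod_cast h2
    exact mul_le_mul_of_nonneg_right hcard (mul_nonneg hN0 (hE w z))
  by_cases hD1 : A.card ≤ 1
  · have hsub : ∀ w ∈ A, ∀ z ∈ A, w = z := Finset.card_le_one.mp hD1
    have hz : ∑ w ∈ A, ∑ z ∈ A,
        (sMargOn A k f w + sMargOn A k f z - 2 * tMargOn A k f w z) ^ 2 = 0 := by
      apply Finset.sum_eq_zero
      intro w hw
      apply Finset.sum_eq_zero
      intro z hz
      rw [hsub z hz w hw, tMargOn_diag]
      ring
    rw [hz]
    exact mul_nonneg hN0 (Finset.sum_nonneg (fun w _ => Finset.sum_nonneg (fun z _ => hE w z)))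
  · have hD2 : (0 : ℝ) < (A.card : ℝ) - 1 := by
      have hD1' : 1 < A.card := not_le.mp hD1
      have : (1 : ℝ) < (A.card : ℝ) := by exact_mod_cast hD1'
      linarith
    have hfin : ((A.card : ℝ) - 1)
        * ∑ w ∈ A, ∑ z ∈ A,
          (sMargOn A k f w + sMargOn A k f z - 2 * tMargOn A k f w z) ^ 2
        ≤ ((A.card : ℝ) - 1) * (((A.card - 2).choose (k - 1) : ℝ) *
          ∑ w ∈ A, ∑ z ∈ A, ∑ T ∈ A.powersetCard k,
            ind w T * (1 - ind z T) * (f T - f (swapSet w z T)) ^ 2) := by
      linarith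
    exact le_of_mul_le_mul_left hfin hD2

end Vale.Agent.H66
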