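import Vale.Agent.H66.KTV.JohnsonOn

/-!
Weak form of the Johnson surplus inequality, in the normal form used by the fibre rows of the
simple-graph argument: for a function `f` on the `k`-subsets `T` of a finite set `A`,

`sum over unordered pairs {w, z} of |F_wz| (avg_{F_wz} f - avg f)^2
   <= (1/2) sum over Johnson edges (f S - f S')^2`,

where `F_wz` is the set of `k`-subsets containing exactly one of `w, z` (ordered pairs and both
endpoints of an edge are counted, hence the factor 2 on the left).  No spectral input is used.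
-/

namespace Vale.Agent.H66

open Finset

set_option linter.unusedSectionVars false
set_option linter.unusedVariables false

variable {ι : Type*} [DecidableEq ι]

theorem sum_ind_mul_on (A T : Finset ι) (hT : T ⊆ A) (G : ι → ℝ) :
    ∑ w ∈ A, ind w T * G w = ∑ w ∈ T, G w := by
  have h1 : ∀ w, ind w T * G w = if w ∈ T then G w else 0 := by
    intro w
    unfold ind
    split_ifs <;> simp
  simp only [h1]
  rw [← Finset.sum_filter, Finset.filter_mem_eq_inter, Finset.inter_eq_right.mpr hT]

theorem sum_one_sub_ind_mul_on (A T : Finset ι) (G : ι → ℝ) :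
    ∑ z ∈ A, (1 - ind z T) * G z = ∑ z ∈ A \ T, G z := by
  have h1 : ∀ z, (1 - ind z T) * G z = if z ∉ T then G z else 0 := by
    intro z
    unfold ind
    split_ifs <;> simp
  simp only [h1]
  rw [← Finset.sum_filter, Finset.filter_notMem_eq_sdiff]

/-- The right side in the insert/erase form. -/
theorem edge_sum_eq (A : Finset ι) (k : ℕ) (f : Finset ι → ℝ) :
    ∑ w ∈ A, ∑ z ∈ A, ∑ T ∈ A.powersetCard k,
        ind w T * (1 - ind z T) * (f T - f (swapSet w z T)) ^ 2
      = ∑ T ∈ A.powersetCard k, ∑ x ∈ T, ∑ y ∈ A \ T,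
          (f T - f (insert y (T.erase x))) ^ 2 := by
  have e1 : ∑ w ∈ A, ∑ z ∈ A, ∑ T ∈ A.powersetCard k,
        ind w T * (1 - ind z T) * (f T - f (swapSet w z T)) ^ 2
      = ∑ T ∈ A.powersetCard k, ∑ w ∈ A, ∑ z ∈ A,
        ind w T * (1 - ind z T) * (f T - f (swapSet w z T)) ^ 2 := by
    calc ∑ w ∈ A, ∑ z ∈ A, ∑ T ∈ A.powersetCard k,
          ind w T * (1 - ind z T) * (f T - f (swapSet w z T)) ^ 2
        = ∑ w ∈ A, ∑ T ∈ A.powersetCard k, ∑ z ∈ A,
          ind w T * (1 - ind z T) * (f T - f (swapSet w z T)) ^ 2 :=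
          Finset.sum_congr rfl (fun w _ => Finset.sum_comm)
      _ = ∑ T ∈ A.powersetCard k, ∑ w ∈ A, ∑ z ∈ A,
          ind w T * (1 - ind z T) * (f T - f (swapSet w z T)) ^ 2 := Finset.sum_comm
  rw [e1]
  refine Finset.sum_congr rfl (fun T hT => ?_)
  have hTA : T ⊆ A := (Finset.mem_powersetCard.mp hT).1
  have e2 : ∀ w, ∑ z ∈ A, ind w T * (1 - ind z T) * (f T - f (swapSet w z T)) ^ 2
      = ind w T * ∑ z ∈ A \ T, (f T - f (swapSet w z T)) ^ 2 := by
    intro w
    rw [← sum_one_sub_ind_mul_on A T (fun z => (f T - f (swapSet w z T)) ^ 2), Finset.mul_sum]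
    exact Finset.sum_congr rfl (fun z _ => by ring)
  simp only [e2]
  rw [sum_ind_mul_on A T hTA (fun w => ∑ z ∈ A \ T, (f T - f (swapSet w z T)) ^ 2)]
  refine Finset.sum_congr rfl (fun x hx => Finset.sum_congr rfl (fun y hy => ?_))
  rw [swapSet_eq x y T hx (Finset.mem_sdiff.mp hy).2]

/-- Sums over the sets split by a pair, written with indicators. -/
theorem split_sum_eq (A : Finset ι) (k : ℕ) (w z : ι) (G : Finset ι → ℝ) :
    ∑ T ∈ (A.powersetCard k).filter (fun T => (w ∈ T) ≠ (z ∈ T)), G T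
      = ∑ T ∈ A.powersetCard k, (ind w T - ind z T) ^ 2 * G T := by
  rw [Finset.sum_filter]
  refine Finset.sum_congr rfl (fun T _ => ?_)
  unfold ind
  by_cases h1 : w ∈ T <;> by_cases h2 : z ∈ T <;> simp [h1, h2]

theorem split_card_eq (A : Finset ι) (k : ℕ) (w z : ι) :
    (((A.powersetCard k).filter (fun T => (w ∈ T) ≠ (z ∈ T))).card : ℝ)
      = ∑ T ∈ A.powersetCard k, (ind w T - ind z T) ^ 2 := by
  have h := split_sum_eq A k w z (fun _ => (1 : ℝ))
  simp only [Finset.sum_const, nsmul_eq_mul, mul_one] at h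
  exact h

/-- The number of sets split by a pair is `0` or `2 N`. -/
theorem split_card_cases (A : Finset ι) (k : ℕ) (w z : ι) (hw : w ∈ A) (hz : z ∈ A)
    (hwz : w ≠ z) :
    (((A.powersetCard k).filter (fun T => (w ∈ T) ≠ (z ∈ T))).card : ℝ) = 0 ∨
      (((A.powersetCard k).filter (fun T => (w ∈ T) ≠ (z ∈ T))).card : ℝ)
        = 2 * ((A.card - 2).choose (k - 1) : ℝ) := by
  rw [split_card_eq]
  by_cases hk : 1 ≤ k
  · right
    have h1 : ∀ T : Finset ι, (ind w T - ind z T) ^ 2
        = ind w T * (1 - ind z T) + ind z T * (1 - ind w T) := by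
      intro T
      have a1 := ind_mul_self w T
      have a2 := ind_mul_self z T
      linear_combination a1 + a2
    simp only [h1, Finset.sum_add_distrib]
    rw [count_eq_card_on, count_eq_card_on, card_pair_filter_on A k hk w z hw hz hwz,
      card_pair_filter_on A k hk z w hz hw (Ne.symm hwz)]
    ring
  · left
    have hk0 : k = 0 := by omega
    subst hk0
    simp [ind]

/-- Weak form of the Johnson surplus inequality (no variance term on the left). -/
theorem johnson_surplus_weak {α : Type*} [DecidableEq α] (A : Finset α) (k : ℕ)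
    (f : Finset α → ℝ) :
    2 * ∑ w ∈ A, ∑ z ∈ A.erase w,
        (((A.powersetCard k).filter (fun T => (w ∈ T) ≠ (z ∈ T))).card : ℝ) *
          ((∑ T ∈ (A.powersetCard k).filter (fun T => (w ∈ T) ≠ (z ∈ T)), f T) /
              (((A.powersetCard k).filter (fun T => (w ∈ T) ≠ (z ∈ T))).card : ℝ)
            - (∑ T ∈ A.powersetCard k, f T) / ((A.powersetCard k).card : ℝ)) ^ 2
      ≤ ∑ T ∈ A.powersetCard k, ∑ x ∈ T, ∑ y ∈ A \ T,
          (f T - f (insert y (T.erase x))) ^ 2 := by
  have hg : ∑ T ∈ A.powersetCard k,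
      (f T - (∑ T ∈ A.powersetCard k, f T) / ((A.powersetCard k).card : ℝ)) = 0 := by
    rw [Finset.sum_sub_distrib, Finset.sum_const, nsmul_eq_mul]
    by_cases hX : ((A.powersetCard k).card : ℝ) = 0
    · have hX' : A.powersetCard k = ∅ := Finset.card_eq_zero.mp (by exact_mod_cast hX)
      rw [hX']
      simp
    · field_simp
      ring
  have hmain := johnson_pair_weak_on A k
    (fun T => f T - (∑ T ∈ A.powersetCard k, f T) / ((A.powersetCard k).card : ℝ)) hg
  have e : ∀ (w z : α) (T : Finset α),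
      (f T - (∑ T ∈ A.powersetCard k, f T) / ((A.powersetCard k).card : ℝ)
        - (f (swapSet w z T) - (∑ T ∈ A.powersetCard k, f T) / ((A.powersetCard k).card : ℝ)))
      = f T - f (swapSet w z T) := fun w z T => by ring
  simp only [e] at hmain
  rw [edge_sum_eq] at hmain
  have hR0 : 0 ≤ ∑ T ∈ A.powersetCard k, ∑ x ∈ T, ∑ y ∈ A \ T,
      (f T - f (insert y (T.erase x))) ^ 2 :=
    Finset.sum_nonneg (fun T _ => Finset.sum_nonneg (fun x _ =>
      Finset.sum_nonneg (fun y _ => sq_nonneg _)))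
  have hN0 : (0 : ℝ) ≤ ((A.card - 2).choose (k - 1) : ℝ) := Nat.cast_nonneg _
  -- termwise comparison
  have hterm : ∀ w ∈ A, ∀ z ∈ A.erase w,
      2 * ((A.card - 2).choose (k - 1) : ℝ) *
        ((((A.powersetCard k).filter (fun T => (w ∈ T) ≠ (z ∈ T))).card : ℝ) *
          ((∑ T ∈ (A.powersetCard k).filter (fun T => (w ∈ T) ≠ (z ∈ T)), f T) /
              (((A.powersetCard k).filter (fun T => (w ∈ T) ≠ (z ∈ T))).card : ℝ)
            - (∑ T ∈ A.powersetCard k, f T) / ((A.powersetCard k).card : ℝ)) ^ 2)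
      ≤ (∑ T ∈ A.powersetCard k, (ind w T - ind z T) ^ 2 *
          (f T - (∑ T ∈ A.powersetCard k, f T) / ((A.powersetCard k).card : ℝ))) ^ 2 := by
    intro w hw z hz
    rw [Finset.mem_erase] at hz
    have hb : ∑ T ∈ A.powersetCard k, (ind w T - ind z T) ^ 2 *
          (f T - (∑ T ∈ A.powersetCard k, f T) / ((A.powersetCard k).card : ℝ))
        = (∑ T ∈ (A.powersetCard k).filter (fun T => (w ∈ T) ≠ (z ∈ T)), f T)
          - (((A.powersetCard k).filter (fun T => (w ∈ T) ≠ (z ∈ T))).card : ℝ)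
            * ((∑ T ∈ A.powersetCard k, f T) / ((A.powersetCard k).card : ℝ)) := by
      rw [← split_sum_eq, Finset.sum_sub_distrib, Finset.sum_const, nsmul_eq_mul]
    rw [hb]
    rcases split_card_cases A k w z hw hz.2 (Ne.symm hz.1) with h0 | h2
    · rw [h0]
      simp only [zero_mul, mul_zero]
      exact sq_nonneg _
    · by_cases hc : (((A.powersetCard k).filter (fun T => (w ∈ T) ≠ (z ∈ T))).card : ℝ) = 0
      · rw [hc]
        simp only [zero_mul, mul_zero]
        exact sq_nonneg _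
      · rw [← h2]
        apply le_of_eq
        field_simp
  by_cases hNz : ((A.card - 2).choose (k - 1) : ℝ) = 0
  · -- all split sets are empty
    have hzero : ∑ w ∈ A, ∑ z ∈ A.erase w,
        (((A.powersetCard k).filter (fun T => (w ∈ T) ≠ (z ∈ T))).card : ℝ) *
          ((∑ T ∈ (A.powersetCard k).filter (fun T => (w ∈ T) ≠ (z ∈ T)), f T) /
              (((A.powersetCard k).filter (fun T => (w ∈ T) ≠ (z ∈ T))).card : ℝ)
            - (∑ T ∈ A.powersetCard k, f T) / ((A.powersetCard k).card : ℝ)) ^ 2 = 0 := by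
      apply Finset.sum_eq_zero
      intro w hw
      apply Finset.sum_eq_zero
      intro z hz
      rw [Finset.mem_erase] at hz
      rcases split_card_cases A k w z hw hz.2 (Ne.symm hz.1) with h0 | h2
      · rw [h0, zero_mul]
      · rw [h2, hNz, mul_zero, zero_mul]
    rw [hzero, mul_zero]
    exact hR0
  · have hNpos : (0 : ℝ) < ((A.card - 2).choose (k - 1) : ℝ) := lt_of_le_of_ne hN0 (Ne.symm hNz)
    have hstep : 2 * ((A.card - 2).choose (k - 1) : ℝ) * ∑ w ∈ A, ∑ z ∈ A.erase w,
        (((A.powersetCard k).filter (fun T => (w ∈ T) ≠ (z ∈ T))).card : ℝ) *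
          ((∑ T ∈ (A.powersetCard k).filter (fun T => (w ∈ T) ≠ (z ∈ T)), f T) /
              (((A.powersetCard k).filter (fun T => (w ∈ T) ≠ (z ∈ T))).card : ℝ)
            - (∑ T ∈ A.powersetCard k, f T) / ((A.powersetCard k).card : ℝ)) ^ 2
        ≤ ∑ w ∈ A, ∑ z ∈ A, (∑ T ∈ A.powersetCard k, (ind w T - ind z T) ^ 2 *
          (f T - (∑ T ∈ A.powersetCard k, f T) / ((A.powersetCard k).card : ℝ))) ^ 2 := by
      rw [Finset.mul_sum]
      refine Finset.sum_le_sum (fun w hw => ?_)
      rw [Finset.mul_sum]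
      refine le_trans (Finset.sum_le_sum (fun z hz => hterm w hw z hz)) ?_
      exact Finset.sum_le_sum_of_subset_of_nonneg (Finset.erase_subset w A)
        (fun z _ _ => sq_nonneg _)
    have hfin : ((A.card - 2).choose (k - 1) : ℝ) * (2 * ∑ w ∈ A, ∑ z ∈ A.erase w,
        (((A.powersetCard k).filter (fun T => (w ∈ T) ≠ (z ∈ T))).card : ℝ) *
          ((∑ T ∈ (A.powersetCard k).filter (fun T => (w ∈ T) ≠ (z ∈ T)), f T) /
              (((A.powersetCard k).filter (fun T => (w ∈ T) ≠ (z ∈ T))).card : ℝ)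
            - (∑ T ∈ A.powersetCard k, f T) / ((A.powersetCard k).card : ℝ)) ^ 2)
        ≤ ((A.card - 2).choose (k - 1) : ℝ) * ∑ T ∈ A.powersetCard k, ∑ x ∈ T, ∑ y ∈ A \ T,
          (f T - f (insert y (T.erase x))) ^ 2 := by
      linarith
    exact le_of_mul_le_mul_left hfin hNpos

end Vale.Agent.H66
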