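import Mathlib

/-!
An algebraic identity for first and second order marginals `s`, `t` of a centred function on the
`k`-subsets of a finite set (used for the pair inequality on Johnson graphs).
-/

namespace Vale.Agent.H66

open Finset

theorem sum_sq_diff {ι : Type*} [Fintype ι] (a : ι → ℝ) :
    ∑ w, ∑ z, (a w - a z) ^ 2
      = 2 * (Fintype.card ι : ℝ) * ∑ w, a w ^ 2 - 2 * (∑ w, a w) ^ 2 := by
  have h1 : ∀ w z, (a w - a z) ^ 2 = a w ^ 2 - 2 * (a w * a z) + a z ^ 2 := fun w z => by ring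
  simp only [h1, Finset.sum_add_distrib, Finset.sum_sub_distrib, Finset.sum_const,
    Finset.card_univ, nsmul_eq_mul, ← Finset.mul_sum, ← Finset.sum_mul]
  ring

theorem sum_rot {ι : Type*} [Fintype ι] (F : ι → ι → ι → ℝ) :
    ∑ w, ∑ z, ∑ y, F w z y = ∑ y, ∑ w, ∑ z, F w z y := by
  calc ∑ w, ∑ z, ∑ y, F w z y = ∑ w, ∑ y, ∑ z, F w z y :=
        Finset.sum_congr rfl (fun w _ => Finset.sum_comm)
    _ = ∑ y, ∑ w, ∑ z, F w z y := Finset.sum_comm

theorem pair_alg {ι : Type*} [Fintype ι] [DecidableEq ι] (s : ι → ℝ) (t : ι → ι → ℝ) (k : ℝ)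
    (hsym : ∀ a b, t a b = t b a) (hdiag : ∀ a, t a a = s a)
    (hs : ∑ a, s a = 0) (ht : ∀ b, ∑ a, t a b = k * s b) :
    ∑ w, ∑ z, ∑ y ∈ (univ.erase w).erase z,
        ((t w y - t z y) ^ 2 + ((s w - s z) - (t w y - t z y)) ^ 2)
      - ((Fintype.card ι : ℝ) - 1) * ∑ w, ∑ z, (s w + s z - 2 * t w z) ^ 2
      = (4 * k * ((Fintype.card ι : ℝ) - k) - 2 * (Fintype.card ι : ℝ)) * ∑ a, s a ^ 2 := by
  have ht' : ∀ a, ∑ b, t a b = k * s a := by
    intro a
    rw [← ht a]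
    exact Finset.sum_congr rfl (fun b _ => hsym a b)
  -- the basic quantities
  have hW : ∑ w, ∑ z, (s w - t w z) ^ 2
      = (Fintype.card ι : ℝ) * ∑ a, s a ^ 2 - 2 * k * ∑ a, s a ^ 2 + ∑ w, ∑ z, t w z ^ 2 := by
    have h1 : ∀ w z, (s w - t w z) ^ 2 = s w ^ 2 - 2 * (s w * t w z) + t w z ^ 2 :=
      fun w z => by ring
    simp only [h1, Finset.sum_add_distrib, Finset.sum_sub_distrib, Finset.sum_const,
      Finset.card_univ, nsmul_eq_mul, ← Finset.mul_sum, ht']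
    have h2 : ∀ x, s x * (k * s x) = k * s x ^ 2 := fun x => by ring
    simp only [h2, ← Finset.mul_sum]
    ring
  have hW' : ∑ w, ∑ z, (s z - t w z) ^ 2 = ∑ w, ∑ z, (s w - t w z) ^ 2 := by
    rw [Finset.sum_comm]
    exact Finset.sum_congr rfl (fun w _ => Finset.sum_congr rfl (fun z _ => by rw [hsym z w]))
  have hC : ∑ w, ∑ z, (s w - t w z) * (s z - t w z)
      = - (2 * k * ∑ a, s a ^ 2) + ∑ w, ∑ z, t w z ^ 2 := by
    have h1 : ∀ w z, (s w - t w z) * (s z - t w z)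
        = s w * s z - s w * t w z - s z * t w z + t w z ^ 2 := fun w z => by ring
    simp only [h1, Finset.sum_add_distrib, Finset.sum_sub_distrib, ← Finset.mul_sum, ht', hs,
      mul_zero, Finset.sum_const_zero]
    have h3 : ∑ w, ∑ z, s z * t w z = ∑ z, s z * (k * s z) := by
      rw [Finset.sum_comm]
      exact Finset.sum_congr rfl (fun z _ => by rw [← Finset.mul_sum, ht z])
    rw [h3]
    have h2 : ∀ x, s x * (k * s x) = k * s x ^ 2 := fun x => by ring
    simp only [h2, ← Finset.mul_sum]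
    ring
  have hA : ∑ w, ∑ z, (s w + s z - 2 * t w z) ^ 2
      = 2 * ∑ w, ∑ z, (s w - t w z) ^ 2 + 2 * ∑ w, ∑ z, (s w - t w z) * (s z - t w z) := by
    have h1 : ∀ w z, (s w + s z - 2 * t w z) ^ 2
        = (s w - t w z) ^ 2 + (s z - t w z) ^ 2 + 2 * ((s w - t w z) * (s z - t w z)) :=
      fun w z => by ring
    simp only [h1, Finset.sum_add_distrib, ← Finset.mul_sum]
    rw [hW']
    ring
  -- the sums over all triples
  have hB1 : ∑ w, ∑ z, ∑ y, (t w y - t z y) ^ 2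
      = 2 * (Fintype.card ι : ℝ) * ∑ w, ∑ z, t w z ^ 2 - 2 * k ^ 2 * ∑ a, s a ^ 2 := by
    have e1 : ∑ w, ∑ z, ∑ y, (t w y - t z y) ^ 2 = ∑ y, ∑ w, ∑ z, (t w y - t z y) ^ 2 :=
      sum_rot (fun w z y => (t w y - t z y) ^ 2)
    rw [e1]
    have e2 : ∀ y, ∑ w, ∑ z, (t w y - t z y) ^ 2
        = 2 * (Fintype.card ι : ℝ) * ∑ w, t w y ^ 2 - 2 * (k * s y) ^ 2 := by
      intro y
      rw [sum_sq_diff (fun w => t w y), ht y]
    simp only [e2, Finset.sum_sub_distrib, ← Finset.mul_sum]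
    have e3 : ∑ y, ∑ w, t w y ^ 2 = ∑ w, ∑ z, t w z ^ 2 := Finset.sum_comm
    rw [e3]
    have e4 : ∀ y, (k * s y) ^ 2 = k ^ 2 * s y ^ 2 := fun y => by ring
    simp only [e4, ← Finset.mul_sum]
    ring
  have hB2 : ∑ w, ∑ z, ∑ y, ((s w - s z) - (t w y - t z y)) ^ 2
      = 2 * (Fintype.card ι : ℝ) * ∑ w, ∑ z, (s w - t w z) ^ 2 - 2 * k ^ 2 * ∑ a, s a ^ 2 := by
    have e1 : ∑ w, ∑ z, ∑ y, ((s w - s z) - (t w y - t z y)) ^ 2
        = ∑ y, ∑ w, ∑ z, ((s w - t w y) - (s z - t z y)) ^ 2 := by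
      rw [← sum_rot (fun w z y => ((s w - t w y) - (s z - t z y)) ^ 2)]
      refine Finset.sum_congr rfl (fun w _ => Finset.sum_congr rfl (fun z _ =>
        Finset.sum_congr rfl (fun y _ => ?_)))
      ring
    rw [e1]
    have e2 : ∀ y, ∑ w, ∑ z, ((s w - t w y) - (s z - t z y)) ^ 2
        = 2 * (Fintype.card ι : ℝ) * ∑ w, (s w - t w y) ^ 2 - 2 * (k * s y) ^ 2 := by
      intro y
      rw [sum_sq_diff (fun w => s w - t w y), Finset.sum_sub_distrib, hs, ht y]
      ring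
    simp only [e2, Finset.sum_sub_distrib, ← Finset.mul_sum]
    have e3 : ∑ y, ∑ w, (s w - t w y) ^ 2 = ∑ w, ∑ z, (s w - t w z) ^ 2 := Finset.sum_comm
    rw [e3]
    have e4 : ∀ y, (k * s y) ^ 2 = k ^ 2 * s y ^ 2 := fun y => by ring
    simp only [e4, ← Finset.mul_sum]
    ring
  -- removing the two excluded values of `y`
  have hrem : ∀ w z, ∑ y ∈ (univ.erase w).erase z,
        ((t w y - t z y) ^ 2 + ((s w - s z) - (t w y - t z y)) ^ 2)
      = ∑ y, ((t w y - t z y) ^ 2 + ((s w - s z) - (t w y - t z y)) ^ 2)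
        - (2 * (s w - t w z) ^ 2 + 2 * (s z - t w z) ^ 2) := by
    intro w z
    by_cases hwz : w = z
    · subst hwz
      simp [hdiag]
    · have hz : z ∈ (univ : Finset ι).erase w := by
        simp [Ne.symm hwz]
      have h1 := Finset.add_sum_erase (univ : Finset ι)
        (fun y => (t w y - t z y) ^ 2 + ((s w - s z) - (t w y - t z y)) ^ 2) (mem_univ w)
      have h2 := Finset.add_sum_erase ((univ : Finset ι).erase w)
        (fun y => (t w y - t z y) ^ 2 + ((s w - s z) - (t w y - t z y)) ^ 2) hz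
      simp only [hdiag] at h1 h2
      rw [hsym z w] at h1
      rw [← h1, ← h2]
      ring
  simp only [hrem, Finset.sum_sub_distrib, Finset.sum_add_distrib, ← Finset.mul_sum]
  rw [hB1, hB2, hW', hA, hC, hW]
  ring

end Vale.Agent.H66
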