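import Vale.Agent.H90.KTV.Defs

/-!
Elementary facts about column swaps, margins and row-pair fibres of Boolean matrices,
used for the three-row lemma of the switch-chain development.
-/

namespace Vale.Agent.H66

open Vale.Agent.H90 Finset

set_option linter.unusedSectionVars false

variable {R C : Type*} [Fintype R] [DecidableEq R] [Fintype C] [DecidableEq C]

theorem colSwap_apply (S : Finset R) (u v : C) (A : R → C → Bool) (r : R) (c : C) :
    colSwap S u v A r c = if r ∈ S then A r (Equiv.swap u v c) else A r c := rfl

theorem colSwap_of_mem {S : Finset R} {r : R} (h : r ∈ S) (u v : C) (A : R → C → Bool) (c : C) :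
    colSwap S u v A r c = A r (Equiv.swap u v c) := by
  simp [colSwap_apply, h]

theorem colSwap_of_not_mem {S : Finset R} {r : R} (h : r ∉ S) (u v : C) (A : R → C → Bool) :
    colSwap S u v A r = A r := by
  funext c
  simp [colSwap_apply, h]

theorem colSwap_invol (S : Finset R) (u v : C) (A : R → C → Bool) :
    colSwap S u v (colSwap S u v A) = A := by
  funext r c
  simp only [colSwap_apply]
  split_ifs <;> simp

theorem swap_inv_of_eq (g : C → Bool) (u v : C) (h : g u = g v) (c : C) :
    g (Equiv.swap u v c) = g c := by
  rcases eq_or_ne c u with rfl | hcu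
  · simp [h]
  · rcases eq_or_ne c v with rfl | hcv
    · simp [h]
    · rw [Equiv.swap_apply_of_ne_of_ne hcu hcv]

theorem rowSum_colSwap (S : Finset R) (u v : C) (A : R → C → Bool) (r : R) :
    rowSum (colSwap S u v A) r = rowSum A r := by
  unfold rowSum
  by_cases h : r ∈ S
  · apply Finset.card_bij (fun c _ => Equiv.swap u v c)
    · intro c hc
      simp only [mem_filter, mem_univ, true_and] at hc ⊢
      rw [colSwap_of_mem h] at hc
      exact hc
    · intro c1 _ c2 _ h12
      exact (Equiv.swap u v).injective h12
    · intro c hc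
      refine ⟨Equiv.swap u v c, ?_, by simp⟩
      simp only [mem_filter, mem_univ, true_and] at hc ⊢
      rw [colSwap_of_mem h]
      simpa using hc
  · rw [colSwap_of_not_mem h]

/-- Number of rows of `S` having a one in column `c`. -/
def cnt (S : Finset R) (A : R → C → Bool) (c : C) : ℕ := (S.filter (fun i => A i c = true)).card

theorem colSum_split (S : Finset R) (A : R → C → Bool) (c : C) :
    colSum A c = cnt S A c + (univ.filter (fun i => i ∉ S ∧ A i c = true)).card := by
  unfold colSum cnt
  rw [← Finset.card_filter_add_card_filter_not (s := univ.filter (fun i => A i c = true))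
    (fun i => i ∈ S)]
  congr 1
  · congr 1
    ext i
    simp [and_comm]
  · congr 1
    ext i
    simp [and_comm]

theorem cnt_colSwap (S : Finset R) (u v : C) (A : R → C → Bool) (c : C) :
    cnt S (colSwap S u v A) c = cnt S A (Equiv.swap u v c) := by
  unfold cnt
  congr 1
  apply Finset.filter_congr
  intro i hi
  rw [colSwap_of_mem hi]

theorem sameMarg_colSwap (S : Finset R) (u v : C) (A : R → C → Bool)
    (h : cnt S A u = cnt S A v) : SameMarg A (colSwap S u v A) := by
  refine ⟨fun i => (rowSum_colSwap S u v A i).symm, fun c => ?_⟩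
  rw [colSum_split S A c, colSum_split S (colSwap S u v A) c, cnt_colSwap]
  congr 1
  · rcases eq_or_ne c u with rfl | hcu
    · simp [h]
    · rcases eq_or_ne c v with rfl | hcv
      · simp [h]
      · rw [Equiv.swap_apply_of_ne_of_ne hcu hcv]
  · congr 1
    apply Finset.filter_congr
    intro i _
    constructor
    · rintro ⟨hi, hA⟩
      exact ⟨hi, by rw [colSwap_of_not_mem hi]; exact hA⟩
    · rintro ⟨hi, hA⟩
      exact ⟨hi, by rw [colSwap_of_not_mem hi] at hA; exact hA⟩

theorem cnt_pair {a e : R} (hae : a ≠ e) (A : R → C → Bool) (c : C) :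
    cnt {a, e} A c = (A a c).toNat + (A e c).toNat := by
  unfold cnt
  rw [Finset.filter_insert, Finset.filter_singleton]
  cases h1 : A a c <;> cases h2 : A e c <;> simp [hae]

theorem cnt_triple {a b e : R} (hab : a ≠ b) (hae : a ≠ e) (hbe : b ≠ e) (A : R → C → Bool)
    (c : C) : cnt {a, b, e} A c = (A a c).toNat + (A b c).toNat + (A e c).toNat := by
  unfold cnt
  rw [Finset.filter_insert, Finset.filter_insert, Finset.filter_singleton]
  cases h1 : A a c <;> cases h2 : A b c <;> cases h3 : A e c <;> simp [hab, hae, hbe]

theorem sameMarg_refl (A : R → C → Bool) : SameMarg A A := ⟨fun _ => rfl, fun _ => rfl⟩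

theorem sameMarg_symm {A B : R → C → Bool} (h : SameMarg A B) : SameMarg B A :=
  ⟨fun i => (h.1 i).symm, fun c => (h.2 c).symm⟩

theorem sameMarg_trans {A B D : R → C → Bool} (h1 : SameMarg A B) (h2 : SameMarg B D) :
    SameMarg A D :=
  ⟨fun i => (h1.1 i).trans (h2.1 i), fun c => (h1.2 c).trans (h2.2 c)⟩

theorem relP_refl (i j : R) (A : R → C → Bool) : RelP i j A A :=
  ⟨fun _ _ _ => rfl, sameMarg_refl A⟩

theorem relP_symm {i j : R} {A B : R → C → Bool} (h : RelP i j A B) : RelP i j B A :=
  ⟨fun k hi hj => (h.1 k hi hj).symm, sameMarg_symm h.2⟩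

theorem relP_trans {i j : R} {A B D : R → C → Bool} (h1 : RelP i j A B) (h2 : RelP i j B D) :
    RelP i j A D :=
  ⟨fun k hi hj => (h1.1 k hi hj).trans (h2.1 k hi hj), sameMarg_trans h1.2 h2.2⟩

theorem relP_comm {i j : R} {A B : R → C → Bool} : RelP i j A B ↔ RelP j i A B :=
  ⟨fun h => ⟨fun k hj hi => h.1 k hi hj, h.2⟩, fun h => ⟨fun k hi hj => h.1 k hj hi, h.2⟩⟩

/-- In a row-pair fibre the number of ones of the two rows in a column is constant. -/
theorem relP_res {a e : R} (hae : a ≠ e) {A H : R → C → Bool} (h : RelP a e A H) (c : C) :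
    (H a c).toNat + (H e c).toNat = (A a c).toNat + (A e c).toNat := by
  have h1 := colSum_split {a, e} A c
  have h2 := colSum_split {a, e} H c
  rw [cnt_pair hae] at h1 h2
  have h3 : (univ.filter (fun i => i ∉ ({a, e} : Finset R) ∧ A i c = true)).card
      = (univ.filter (fun i => i ∉ ({a, e} : Finset R) ∧ H i c = true)).card := by
    congr 1
    apply Finset.filter_congr
    intro i _
    constructor
    · rintro ⟨hi, hA⟩
      simp only [mem_insert, mem_singleton, not_or] at hi
      exact ⟨by simp [hi.1, hi.2], by rw [← h.1 i hi.1 hi.2]; exact hA⟩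
    · rintro ⟨hi, hA⟩
      simp only [mem_insert, mem_singleton, not_or] at hi
      exact ⟨by simp [hi.1, hi.2], by rw [h.1 i hi.1 hi.2]; exact hA⟩
  have h4 := h.2.2 c
  omega

/-- The number of columns with a one in row `a` and a zero in row `e` is a fibre invariant. -/
theorem relP_adm_count {a e : R} (hae : a ≠ e) {A H : R → C → Bool} (h : RelP a e A H) :
    (univ.filter (fun z => H a z = true ∧ H e z = false)).card
      = (univ.filter (fun z => A a z = true ∧ A e z = false)).card := by
  have key : ∀ B : R → C → Bool,
      (univ.filter (fun z => B a z = true ∧ B e z = true)).card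
        + (univ.filter (fun z => B a z = true ∧ B e z = false)).card = rowSum B a := by
    intro B
    unfold rowSum
    rw [← Finset.card_filter_add_card_filter_not (s := univ.filter (fun z => B a z = true))
      (fun z => B e z = true)]
    congr 1
    · congr 1
      ext z
      simp
    · congr 1
      ext z
      simp
  have htwo : (univ.filter (fun z => H a z = true ∧ H e z = true)).card
      = (univ.filter (fun z => A a z = true ∧ A e z = true)).card := by
    congr 1
    apply Finset.filter_congr
    intro z _
    have := relP_res hae h z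
    revert this
    cases H a z <;> cases H e z <;> cases A a z <;> cases A e z <;> simp
  have h1 := key H
  have h2 := key A
  have h3 := h.2.1 a
  omega

theorem relP_adm_count' {a e : R} (hae : a ≠ e) {A H : R → C → Bool} (h : RelP a e A H) :
    (univ.filter (fun z => H a z = false ∧ H e z = true)).card
      = (univ.filter (fun z => A a z = false ∧ A e z = true)).card := by
  have := relP_adm_count (Ne.symm hae) (relP_comm.mp h)
  simpa [and_comm] using this

end Vale.Agent.H66
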